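import Crest.Agent.N336.P.Geo.Defs

/-!
# Row 336, painter schedule: from blocks to a plan with routes (helper32)
-/

set_option autoImplicit false

namespace Crest.Agent.N336.P.Geo

open Crest.MathPhysics.LatticeSpin

section aux

variable {Λ Cl : Type} [Fintype Λ] [DecidableEq Λ] [DecidableEq Cl]

theorem Seg.ex {Ex Pt : Finset Λ → Finset Λ → Prop} {I : Finset Cl} {m : ℕ} {s s' : CSt Λ Cl}
    (h : Seg Ex Pt I m s s') :
    ∃ st : ℕ → CSt Λ Cl, st 0 = s ∧ st m = s' ∧ ∀ t < m, Move Ex Pt I (st t) (st (t + 1)) := by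
  induction h with
  | nil s => exact ⟨fun _ => s, rfl, rfl, fun t ht => absurd ht (Nat.not_lt_zero t)⟩
  | @cons m s s₁ s' hm _ ih =>
    obtain ⟨st, h0, h1, h2⟩ := ih
    refine ⟨fun t => match t with | 0 => s | t + 1 => st t, rfl, h1, fun t ht => ?_⟩
    cases t with
    | zero => simpa [h0] using hm
    | succ t => exact h2 t (by omega)

theorem Blocks.ex {β : Type} [DecidableEq β] {Ex Pt : Finset Λ → Finset Λ → Prop}
    {I : β → Finset Cl} {l : List β} {s s' : CSt Λ Cl} (h : Blocks Ex Pt I l s s') :
    ∃ (n : ℕ) (st : ℕ → CSt Λ Cl) (blk : ℕ → Option β), st 0 = s ∧ st n = s' ∧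
      (∀ t < n, ∃ b ∈ l, blk t = some b ∧ Move Ex Pt (I b) (st t) (st (t + 1))) ∧
      ∀ b, ((Finset.range n).filter fun t => blk t = some b).card ≤ K0 * l.count b := by
  induction h with
  | nil s =>
    exact ⟨0, fun _ => s, fun _ => none, rfl, rfl, fun t ht => absurd ht (Nat.not_lt_zero t),
      fun b => by simp⟩
  | @cons b l m s s₁ s' hm hs _ ih =>
    obtain ⟨n, st, blk, h0, h1, h2, h3⟩ := ih
    obtain ⟨su, g0, g1, g2⟩ := hs.ex
    refine ⟨m + n, fun t => if t ≤ m then su t else st (t - m),
      fun t => if t < m then some b else blk (t - m), by simp [g0], ?_, fun t ht => ?_,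
      fun b' => ?_⟩
    · by_cases hn : n = 0
      · subst hn; simp [g1, ← h0, ← h1]
      · have : ¬ m + n ≤ m := by omega
        simp [this, h1]
    · by_cases htm : t < m
      · refine ⟨b, List.mem_cons_self, by simp [htm], ?_⟩
        have e1 : t ≤ m := htm.le
        have e2 : t + 1 ≤ m := htm
        simp only [e1, e2, if_true]
        exact g2 t htm
      · obtain ⟨b', hb', e, hmv⟩ := h2 (t - m) (by omega)
        refine ⟨b', List.mem_cons_of_mem _ hb', by simp [htm, e], ?_⟩
        have e2 : ¬ t + 1 ≤ m := by omega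
        have e3 : t + 1 - m = t - m + 1 := by omega
        simp only [e2, if_false, e3]
        by_cases e1 : t ≤ m
        · have : t = m := by omega
          subst this
          simpa [g1, h0] using hmv
        · simpa [e1] using hmv
    · have hsub : ((Finset.range (m + n)).filter
            fun t => (if t < m then some b else blk (t - m)) = some b') ⊆
          ((Finset.range m).filter fun _ => b = b') ∪
            ((Finset.range n).filter fun t => blk t = some b').image (· + m) := by
        intro t ht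
        simp only [Finset.mem_filter, Finset.mem_range, Finset.mem_union, Finset.mem_image] at ht ⊢
        by_cases htm : t < m
        · left; simpa [htm] using ht.2
        · right
          exact ⟨t - m, ⟨by omega, by simpa [htm] using ht.2⟩, by omega⟩
      refine (Finset.card_le_card hsub).trans ((Finset.card_union_le _ _).trans ?_)
      have a1 := (Finset.card_image_le (s := (Finset.range n).filter fun t => blk t = some b')
        (f := (· + m))).trans (h3 b')
      by_cases hb : b = b'
      · subst hb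
        have a2 : ((Finset.range m).filter fun _ => b = b).card ≤ K0 := by simpa using hm
        rw [List.count_cons_self, Nat.mul_succ]; omega
      · rw [List.count_cons_of_ne hb]
        simpa [hb] using a1

end aux

/-- Counting through the blocks. -/
theorem card_filter_blk {β : Type} [DecidableEq β] {n : ℕ} {blk : ℕ → Option β} {S : Finset β}
    (hf : ∀ b, ((Finset.range n).filter fun t => blk t = some b).card ≤ K0)
    (P : ℕ → Prop) [DecidablePred P] (T : Finset β)
    (h : ∀ t < n, P t → ∃ b ∈ T, blk t = some b) :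
    ((Finset.range n).filter P).card ≤ K0 * T.card := by
  have hsub : (Finset.range n).filter P ⊆
      T.biUnion fun b => (Finset.range n).filter fun t => blk t = some b := by
    intro t ht
    simp only [Finset.mem_filter, Finset.mem_range, Finset.mem_biUnion] at ht ⊢
    obtain ⟨b, hb, e⟩ := h t ht.1 ht.2
    exact ⟨b, hb, ht.1, e⟩
  refine (Finset.card_le_card hsub).trans (Finset.card_biUnion_le.trans ?_)
  refine (Finset.sum_le_card_nsmul _ _ K0 fun b _ => hf b).trans ?_
  rw [smul_eq_mul, mul_comm]

theorem blocks : BlocksStmt := by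
  intro L Pa β _ _ _ S κ Ex Pt fin I l root hnd hS hB ⟨R⟩
  obtain ⟨n, st, blk, h0, h1, h2, h3⟩ := hB.ex
  have hf : ∀ b, ((Finset.range n).filter fun t => blk t = some b).card ≤ K0 := fun b =>
    (h3 b).trans (by
      have := List.nodup_iff_count_le_one.1 hnd b
      calc K0 * l.count b ≤ K0 * 1 := Nat.mul_le_mul_left _ this
        _ = K0 := mul_one _)
  let I' : ℕ → Finset Pa := fun t => ((blk t).map I).getD ∅
  let rg' : ℕ → Finset (Fin L × Fin L) := fun t => ((blk t).map R.rg).getD ∅
  have hb : ∀ t < n, ∃ b ∈ S, blk t = some b ∧ I' t = I b ∧ rg' t = R.rg b ∧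
      Move Ex Pt (I b) (st t) (st (t + 1)) := fun t ht => by
    obtain ⟨b, hbl, e, hm⟩ := h2 t ht
    exact ⟨b, hS b hbl, e, by simp [I', e], by simp [rg', e], hm⟩
  refine ⟨n, I', ?_, ⟨⟨st, root, fun z => by rw [h0], by rw [h0], fun t ht => ?_, by rw [h1],
    by rw [h1]⟩⟩, fun t ht => ?_, fun p => ?_, ⟨⟨R.loc, rg', R.rp, fun t ht => ?_, R.conn_p,
      fun t ht p hp => ?_, R.mem_p, R.mem_fin, fun z => ?_⟩⟩⟩
  · have := card_filter_blk (S := S) hf (fun _ => True) S fun t ht _ => by
      obtain ⟨b, hbS, e, -⟩ := hb t ht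
      exact ⟨b, hbS, e⟩
    simpa using this
  · obtain ⟨b, -, -, e, -, hm⟩ := hb t ht
    rw [e]; exact hm
  · obtain ⟨b, hbS, -, e, -, -⟩ := hb t ht
    rw [e]; exact R.card_I b hbS
  · refine (card_filter_blk (S := S) hf (fun t => p ∈ I' t) (S.filter fun b => p ∈ I b)
      fun t ht hp => ?_).trans (Nat.mul_le_mul_left _ (R.mult p))
    obtain ⟨b, hbS, e, e', -, -⟩ := hb t ht
    exact ⟨b, Finset.mem_filter.2 ⟨hbS, e' ▸ hp⟩, e⟩
  · obtain ⟨b, hbS, -, -, e, -⟩ := hb t ht
    rw [e]; exact R.conn_g b hbS
  · obtain ⟨b, hbS, -, e', e, -⟩ := hb t ht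
    rw [e]; exact R.mem_g b hbS p (e' ▸ hp)
  · refine Nat.add_le_add ((card_filter_blk (S := S) hf (fun t => z ∈ rg' t)
      (S.filter fun b => z ∈ R.rg b) fun t ht hp => ?_).trans
        (Nat.mul_le_mul_left _ (R.cong_g z))) (R.cong_p z)
    obtain ⟨b, hbS, e, -, e', -⟩ := hb t ht
    exact ⟨b, Finset.mem_filter.2 ⟨hbS, e' ▸ hp⟩, e⟩

end Crest.Agent.N336.P.Geo
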