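import Crest.Agent.N336.P.Geo.Sched
import Crest.Agent.N336.P.Geo.Blocks

/-!
# Row 336, painter schedule: assembly of `GeoStmt` (helper32)
-/

set_option autoImplicit false

namespace Crest.Agent.N336.P.Geo

open Crest.MathPhysics.LatticeSpin

/-- Cones are monotone in the constant. -/
def coneMono {K K' ℓ : ℕ} (h : K ≤ K') (c : Cone K ℓ) : Cone K' ℓ where
  Z := c.Z
  gam := c.gam
  f := c.f
  card := c.card.trans h
  gam_le := c.gam_le
  gam_eq := c.gam_eq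
  lip z w h1 h2 := by
    have := c.lip z w h1 h2
    omega
  lev r k T hT := (c.lev r k T hT).trans (Nat.mul_le_mul_right _ h)

/-- Plans are monotone in the constants. -/
def planMono {Λ Pa : Type} [Fintype Λ] [DecidableEq Λ] [DecidableEq Pa]
    {Ex Pt : Finset Λ → Finset Λ → Prop} {n ℓ ℓ' d d' : ℕ} {fin : Λ → Pa} {I : ℕ → Finset Pa}
    (hℓ : ℓ ≤ ℓ') (hd : d ≤ d') (p : Plan Λ Pa Ex Pt n ℓ d fin I) :
    Plan Λ Pa Ex Pt n ℓ' d' fin I where
  st := p.st
  root := p.root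
  col₀ := p.col₀
  H₀ := p.H₀
  move t ht := by
    rcases p.move t ht with h | ⟨old, new, pr, pr', cells, h1, h2, h3, h4, h5⟩ | ⟨v, hv, h1, h2⟩
    · exact Or.inl h
    · exact Or.inr (Or.inl ⟨old, new, pr, pr', cells, h1, h2, h3, h4.trans hℓ, h5⟩)
    · exact Or.inr (Or.inr ⟨v, hv, h1.trans hd, h2⟩)
  colₙ := p.colₙ
  Hₙ := p.Hₙ

/-- Routes are monotone in the congestion. -/
def routesMono {L : ℕ} {Pa : Type} [Fintype Pa] [DecidableEq Pa] {n κ κ' : ℕ}
    {fin : Fin L × Fin L → Pa} {I : ℕ → Finset Pa} (h : κ ≤ κ') (r : Routes L Pa n κ fin I) :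
    Routes L Pa n κ' fin I where
  loc := r.loc
  rg := r.rg
  rp := r.rp
  conn_g := r.conn_g
  conn_p := r.conn_p
  mem_g := r.mem_g
  mem_p := r.mem_p
  mem_fin := r.mem_fin
  cong z := (r.cong z).trans h

theorem ex_top {L : ℕ} (hL : 8192 ≤ L) : ∃ top, 32 * del top ≤ L ∧ L < 64 * del top := by
  have hne : L / 8192 ≠ 0 := by omega
  have h1 := Nat.pow_log_le_self 2 hne
  have h2 := Nat.lt_pow_succ_log_self (b := 2) (by norm_num) (L / 8192)
  refine ⟨Nat.log 2 (L / 8192), ?_⟩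
  rw [pow_succ] at h2
  unfold del
  generalize 2 ^ Nat.log 2 (L / 8192) = x at h1 h2 ⊢
  rw [Nat.le_div_iff_mul_le (by norm_num)] at h1
  rw [Nat.div_lt_iff_lt_mul (by norm_num)] at h2
  constructor <;> linarith

theorem geo (hs : SmallStmt) (hm : MacroStmt) (hr : RoutesStmt) : GeoStmt := by
  refine ⟨K0 * 20000, by unfold K0; norm_num, fun L i₁ Ex Pt hL hPt hEx => ?_⟩
  have hK : K0 ≤ K0 * 20000 := Nat.le_mul_of_pos_right _ (by norm_num)
  have hL1 : 8192 ≤ L := by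
    have : 1 ≤ 2 ^ i₁ := Nat.one_le_two_pow
    have h2 : K0 * 20000 * 1 ≤ L := (Nat.mul_le_mul_left _ this).trans hL
    unfold K0 at h2
    omega
  obtain ⟨top, ht1, ht2⟩ := ex_top hL1
  have hAt : ∀ i ≤ i₁, PtAt (gpos L) Pt (2 ^ i) := fun i hi w x y hw => hPt i w x y hi hw
  obtain ⟨l, fin, g1, g2, g3, g4⟩ := sched L top i₁ Ex Pt ht1 ht2 fun i _ => by
    rcases le_or_gt i i₁ with h | h
    · rw [min_eq_left h]
      exact hs _ _ (gpos L) Ex Pt (2 ^ i) Nat.one_le_two_pow (hAt i h)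
    · rw [min_eq_right h.le]
      obtain ⟨k, rfl⟩ := Nat.exists_eq_add_of_lt h
      have e : del (i₁ + k + 1) = 512 * 2 ^ i₁ * 2 ^ k := by
        unfold del
        ring
      rw [e]
      exact hm _ _ (gpos L) Ex Pt (2 ^ i₁) (2 ^ k) Nat.one_le_two_pow Nat.one_le_two_pow
        (hAt i₁ le_rfl) fun cn => hEx _ (coneMono hK cn) (by omega)
  obtain ⟨r1, r2, r3⟩ := hr L top fin ht1 ht2 g3
  obtain ⟨n, I, b1, ⟨b2⟩, b3, b4, ⟨b5⟩⟩ :=
    blocks L (Pty L) Blk (BS L top) 10000 Ex Pt fin (NbI L top) l none g1 g2 g4 r1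
  refine ⟨Pty L, inferInstance, inferInstance, n, fin, I, ?_, ⟨planMono hK hK b2⟩,
    fun t ht => ⟨(b3 t ht).1, (b3 t ht).2.trans (by unfold K0; norm_num)⟩,
    fun p => (b4 p).trans (by unfold K0; norm_num), fun p => (r3 p).trans hK,
    ⟨routesMono (by unfold K0; norm_num) b5⟩⟩
  calc n ≤ K0 * (BS L top).card := b1
    _ ≤ K0 * (16 * L ^ 3) := Nat.mul_le_mul_left _ r2
    _ ≤ K0 * 20000 * L ^ 3 := by
      rw [mul_assoc]
      exact Nat.mul_le_mul_left _ (Nat.mul_le_mul_right _ (by norm_num))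

end Crest.Agent.N336.P.Geo
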