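import Crest.Agent.N336.P.Geo.MacroG

/-!
# Row 336, painter schedule: the macro regime `macro_ : RectStmt → MacroStmt` (helper62)
-/

set_option autoImplicit false
set_option linter.unusedSectionVars false

noncomputable section

namespace Crest.Agent.N336.P.Geo

open Crest.MathPhysics.LatticeSpin

namespace Mac

open scoped Classical

variable {Λ Cl : Type} [Fintype Λ] [DecidableEq Λ] [DecidableEq Cl]

/-- colouring after the births at the edges `E` and the local paints at the vertices `T` -/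
def colr (pos : Λ → ℤ × ℤ) (δ η : ℕ) (κ : ℤ × ℤ → Cl) (Q : Rect) (c : Cl) (E : Finset Ed)
    (T : Finset (ℤ × ℤ)) (z : Λ) : Cl :=
  if (∃ e ∈ E, LL δ η Q e (pos z)) ∨
    ∃ V ∈ T, (Q.sc δ).mem (pos z) ∧ nr (vt δ V) (128 * η) (pos z) then c else κ (cl δ (pos z))

/-- the new holes of the local paint at `V` -/
def nw (pos : Λ → ℤ × ℤ) (δ η : ℕ) (κ : ℤ × ℤ → Cl) (Q : Rect) (c : Cl) (V : ℤ × ℤ) :
    Finset (HD Cl) :=
  ({⟨vt δ V, η, c⟩, ⟨pp δ η Q V, η, c⟩} : Finset (HD Cl)).filter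
    fun h => ¬ Two (paint κ Q c) V ∧ (h.hole pos).O.Nonempty

/-- the intermediate states -/
def stt (pos : Λ → ℤ × ℤ) (δ η : ℕ) (κ : ℤ × ℤ → Cl) (Q : Rect) (c : Cl) (HA : Finset (HD Cl))
    (E : Finset Ed) (T : Finset (ℤ × ℤ)) : CSt Λ Cl :=
  ⟨colr pos δ η κ Q c E T, (HA ∪ T.biUnion (nw pos δ η κ Q c)).image (HD.hole pos)⟩

variable {pos : Λ → ℤ × ℤ} {δ η : ℕ} {New : Cl → Prop} {κ : ℤ × ℤ → Cl} {HA : Finset (HD Cl)}
  {Q : Rect} {c : Cl} {I : Finset Cl} {Ex Pt : Finset Λ → Finset Λ → Prop}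

theorem mem_nw {V : ℤ × ℤ} {h : HD Cl} : h ∈ nw pos δ η κ Q c V ↔
    (h = ⟨vt δ V, η, c⟩ ∨ h = ⟨pp δ η Q V, η, c⟩) ∧ ¬ Two (paint κ Q c) V ∧
      (h.hole pos).O.Nonempty := by
  simp only [nw, Finset.mem_filter, Finset.mem_insert, Finset.mem_singleton]

theorem nw_nr {V : ℤ × ℤ} {h : HD Cl} (hh : h ∈ nw pos δ η κ Q c V) {z : ℤ × ℤ} {r : ℤ}
    (hz : nr h.v r z) : nr (vt δ V) (r + 128 * η) z ∧ h.e = η := by
  rcases (mem_nw.1 hh).1 with rfl | rfl
  · exact ⟨hz.mono (by omega), rfl⟩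
  · exact ⟨pp_nr hz, rfl⟩

theorem mem_A {K l : ℕ} (cn : Cone K l) {z : Λ} :
    z ∈ cn.A pos ↔ max (cn.gam (pos z)) l ≤ cn.f (pos z) := by simp [Cone.A]

theorem mem_F {K l : ℕ} (cn : Cone K l) {z : Λ} : z ∈ cn.F pos ↔ cn.f (pos z) ≤ 0 := by
  simp [Cone.F]

theorem disj_AF {K l : ℕ} (hl : 1 ≤ l) (cn : Cone K l) : Disjoint (cn.A pos) (cn.F pos) := by
  rw [Finset.disjoint_left]
  intro z h1 h2
  rw [mem_A] at h1
  rw [mem_F] at h2
  omega

/-- birth of a lens -/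
theorem birth (C : Ctx δ η Q) (hEx : ∀ cn : Cone K0 (128 * η), Ex (cn.A pos) (cn.F pos))
    (r : RD pos δ η New κ HA) (hg : Gen κ Q) (hc : c ∈ I)
    (hI : ∀ X, Q.ext.mem X → κ X ≠ c ∧ ((∃ z, sd (cl δ (pos z)) X ≤ 1) → κ X ∈ I))
    {E : Finset Ed} (hE : E ⊆ edges Q) {e : Ed} (he : e ∈ edges Q) (hn : e ∉ E) :
    ExchMove Ex I (stt pos δ η κ Q c HA E ∅) (stt pos δ η κ Q c HA (insert e E) ∅) := by
  obtain ⟨cn, hcn⟩ := exists_lens C e
  obtain ⟨n, hn'⟩ := wide_col C hg (mem_edges.1 he)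
  have hF : ∀ v ∈ (stt pos δ η κ Q c HA E ∅).H, v.O ⊆ cn.F pos := by
    intro v hv z hz
    simp only [stt, Finset.biUnion_empty, Finset.union_empty] at hv
    obtain ⟨h, hh, rfl⟩ := Finset.mem_image.1 hv
    obtain ⟨-, V, e', -⟩ := r.h1 h hh
    simp only [HD.hole, mem_bx', e'] at hz
    rw [mem_F]
    by_contra h0
    exact ww_vert (by have := r.rad hh; omega) ((hcn _).2 (not_le.1 h0)) hz
  refine ⟨cn.A pos, cn.F pos, if ∃ z, 0 < cn.f (pos z) then n else c, c,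
    disj_AF (by have := C.eta; omega) cn, hEx cn, ?_, hc, fun z _ h2 => ?_,
    fun v hv => Or.inr (hF v hv), fun z => ?_, ?_⟩
  · split_ifs with h
    · obtain ⟨z, hz⟩ := h
      obtain ⟨a, b⟩ := hn' _ (ww_wide C ((hcn _).2 hz))
      exact a ▸ (hI _ b).2 ⟨z, sd_self_le _⟩
    · exact hc
  · rw [mem_F, not_le] at h2
    have w := (hcn _).2 h2
    rw [if_pos ⟨z, h2⟩, ← (hn' _ (ww_wide C w)).1]
    refine if_neg ?_
    rintro (⟨e', he', hl⟩ | ⟨V, hV, -⟩)
    · exact ww_ll C (mem_edges.1 he) (mem_edges.1 (hE he')) (fun h => hn (h ▸ he')) w hl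
    · simp at hV
  · simp only [stt, colr, mem_A, (hcn _).1, Finset.mem_insert, exists_eq_or_imp]
    by_cases h : LL δ η Q e (pos z) <;> simp [h]
  · exact (Finset.filter_true_of_mem hF).symm

/-- local paint at a boundary vertex -/
theorem localPaint (rect : RectStmt) (C : Ctx δ η Q) {m : ℕ} (hm : δ = η * m) (hPt : PtAt pos Pt η)
    (r : RD pos δ η New κ HA) (hg : Gen κ Q) (hc : c ∈ I)
    (hI : ∀ X, Q.ext.mem X → κ X ≠ c ∧ ((∃ z, sd (cl δ (pos z)) X ≤ 1) → κ X ∈ I))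
    {T : Finset (ℤ × ℤ)} {V : ℤ × ℤ} (hV : V ∈ bd Q) (hn : V ∉ T) :
    PaintMove Pt K0 I (stt pos δ η κ Q c HA (edges Q) T)
      (stt pos δ η κ Q c HA (edges Q) (insert V T)) := by
  have hδ := C.pos
  have hη := C.eta
  have hd := C.del
  have hX := C.X
  have hY := C.Y
  obtain ⟨hV1, hV2⟩ := mem_bd.1 hV
  obtain ⟨pr, hpr⟩ := exists_pair κ hδ c
  obtain ⟨a1, a2, a3⟩ := hpr V (hg.two hV1 hV2)
  have e0 : ∀ a : ℤ, (η : ℤ) * (m * a) = δ * a := fun a => by rw [hm]; push_cast; ring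
  have e1 : ∀ a a' : ℤ, (η : ℤ) * max (m * a) (m * a' - 128) = max (δ * a) (δ * a' - 128 * η) :=
    fun a a' => by rw [mul_max_of_nonneg _ _ (Int.natCast_nonneg η), mul_sub, e0, e0, mul_comm _ 128]
  have e2 : ∀ a a' : ℤ, (η : ℤ) * min (m * a) (m * a' + 128) = min (δ * a) (δ * a' + 128 * η) :=
    fun a a' => by rw [mul_min_of_nonneg _ _ (Int.natCast_nonneg η), mul_add, e0, e0, mul_comm _ 128]
  have v1 := mul_le δ hV1.1
  have v2 := mul_le δ hV1.2.1
  have v3 := mul_le δ hV1.2.2.1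
  have v4 := mul_le δ hV1.2.2.2
  -- colours near `V`
  have hcol : ∀ z, nr (vt δ V) (138 * η) (pos z) →
      (stt pos δ η κ Q c HA (edges Q) T).col z =
        if ∃ e ∈ edges Q, LL δ η Q e (pos z) then c else κ (cl δ (pos z)) := by
    intro z hz
    have : ¬ ∃ V' ∈ T, (Q.sc δ).mem (pos z) ∧ nr (vt δ V') (128 * η) (pos z) := by
      rintro ⟨V', h1, -, h2⟩
      exact hn (vert_eq (by omega) hz h2 ▸ h1)
    simp only [stt, colr, this, or_false]
  have hq : ∀ z, nr (vt δ V) (138 * η) (pos z) → Quad V (cl δ (pos z)) := fun z hz =>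
    quad_of_nr hδ (by omega) hz
  refine rect Λ Cl pos Pt η ⟨max (m * Q.x0) (m * V.1 - 128), min (m * Q.x1) (m * V.1 + 128),
    max (m * Q.y0) (m * V.2 - 128), min (m * Q.y1) (m * V.2 + 128)⟩ c I _ _ ∅
    (nw pos δ η κ Q c V) (fun _ => c) (fun _ => (c, c)) (fun _ => pr (vt δ V)) hη hPt
    (by simp only; omega) (by simp only; omega) (by simp)
    ((Finset.card_filter_le _ _).trans (Finset.card_le_two.trans (by norm_num)))
    ?_ ?_ (by simp) ?_ hc ?_ ?_ (by simp) (by simp) ?_ ?_ ?_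
  · intro z hz
    simp only [e1, e2, Rect.mem] at hz
    refine if_pos (Or.inr ⟨V, Finset.mem_insert_self _ _, ?_, ?_⟩)
    · simp only [Rect.mem, Rect.sc]; omega
    · simp only [nr, vt]; omega
  · intro z hz
    simp only [e1, e2, Rect.mem] at hz
    have : ¬ ((Q.sc δ).mem (pos z) ∧ nr (vt δ V) (128 * η) (pos z)) := by
      simp only [Rect.mem, Rect.sc, nr, vt]; omega
    simp only [stt, colr, Finset.mem_insert, exists_eq_or_imp, this, false_or]
  · simp only [stt, Finset.image_empty, Finset.sdiff_empty, Finset.biUnion_insert,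
      ← Finset.image_union]
    congr 1
    ac_rfl
  · intro z hz
    simp only [e1, e2, Rect.mem] at hz
    have hz' : nr (vt δ V) (138 * η) (pos z) := by simp only [nr, vt]; omega
    rw [hcol z hz']
    split_ifs
    · exact hc
    · exact (hI _ (hV1.mem (hq z hz'))).2 ⟨z, sd_self_le _⟩
  · -- (R1)
    intro x y
    by_cases h : ∃ z₀ ∈ sq pos x y (6 * η), ∃ e ∈ edges Q, LL δ η Q e (pos z₀)
    · obtain ⟨z₀, hz₀, e, he, hl⟩ := h
      obtain ⟨n, hn'⟩ := wide_col C hg (mem_edges.1 he)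
      refine ⟨(c, n), fun z hz hzn _ => ?_⟩
      simp only [e1, e2, Rect.mem] at hzn
      rw [hcol z (by simp only [nr, vt]; omega)]
      split_ifs
      · exact Or.inl rfl
      · rw [mem_sq] at hz hz₀
        exact Or.inr (hn' _ (ll_wide C hl (by rw [sd_lt_iff]; omega))).1
    · refine ⟨pr (vt δ V), fun z hz hzn _ => ?_⟩
      simp only [e1, e2, Rect.mem] at hzn
      have hz' : nr (vt δ V) (138 * η) (pos z) := by simp only [nr, vt]; omega
      rw [hcol z hz', if_neg fun h' => h ⟨z, hz, h'⟩]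
      exact a3 _ (hq z hz')
  · -- (R3)
    intro w hw
    obtain ⟨hw1, hw2, ⟨z, hz⟩⟩ := mem_nw.1 hw
    have hnc := nc_of_not_two C hg (fun X hX => (hI X hX).1) hV hw2
    have hz' := nw_nr hw (mem_bx'.1 hz)
    have hr : 7 * (w.e : ℤ) + 128 * η ≤ δ := by rw [hz'.2]; omega
    refine ⟨hz'.2, ⟨z, hz⟩, (occ_mem hδ hI hV1 hr hz'.1 a1).1, (occ_mem hδ hI hV1 hr hz'.1 a2).1,
      by rcases hw1 with rfl | rfl <;> exact hc, fun z hz => ?_, by simp, fun w' hw' hne => ?_⟩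
    · rw [mem_bx'] at hz
      have hz' : nr (vt δ V) (138 * η) (pos z) := (nw_nr hw hz).1.mono (by omega)
      rw [hcol z hz', if_neg]
      · exact a3 _ (hq z hz')
      · rintro ⟨e, -, hl⟩
        rcases hw1 with rfl | rfl
        · exact ww_vert (by omega) (ll_ww C hl) hz
        · exact ll_pp C hnc hl hz
    · have cs := hnc.cases C
      rw [Finset.disjoint_left]
      intro z h1 h2
      rcases hw1 with rfl | rfl <;> rcases (mem_nw.1 hw').1 with rfl | rfl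
      · exact hne rfl
      · simp only [HD.hole, mem_bx', nr, vt] at h1 h2; omega
      · simp only [HD.hole, mem_bx', nr, vt] at h1 h2; omega
      · exact hne rfl
  · intro z z' z'' n n' n'' hz d1 d2 d3 hne c' c''
    simp only [e1, e2, Rect.mem] at n n' n'' hz
    rw [sd_lt_iff] at d1 d2 d3
    have m' : nr (vt δ V) (138 * η) (pos z') := by simp only [nr, vt]; omega
    have m'' : nr (vt δ V) (138 * η) (pos z'') := by simp only [nr, vt]; omega
    rw [hcol z' m'] at hne c'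
    rw [hcol z'' m''] at hne c''
    have l' : ¬ ∃ e ∈ edges Q, LL δ η Q e (pos z') := fun h => c' (if_pos h)
    have l'' : ¬ ∃ e ∈ edges Q, LL δ η Q e (pos z'') := fun h => c'' (if_pos h)
    rw [if_neg l', if_neg l''] at hne
    obtain ⟨h2, hst⟩ := hg.stem (fun X hX => (hI X hX).1) (by have := C.hx; omega)
      (by have := C.hy; omega) hV1 hV2 (hq _ m') (hq _ m'') hne
    have cs := (nc_of_not_two C hg (fun X hX => (hI X hX).1) hV h2).cases C
    have hz6 : nr (vt δ V) (6 * η) (pos z) ∨ nr (pp δ η Q V) (6 * η) (pos z) := by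
      have t1 := mul_tri δ V.1 Q.x0
      have t2 := mul_tri δ V.1 Q.x1
      have t3 := mul_tri δ V.2 Q.y0
      have t4 := mul_tri δ V.2 Q.y1
      rcases hst with ⟨a, b, c, d⟩ | ⟨a, b, c, d⟩
      · have := cross_row hδ (hq _ m') (hq _ m'') d
        simp only [nr, vt]; omega
      · have := cross_col hδ (hq _ m') (hq _ m'') d
        simp only [nr, vt]; omega
    rcases hz6 with h | h
    · exact ⟨_, mem_nw.2 ⟨Or.inl rfl, h2, z, mem_bx'.2 (h.mono (by simp only; omega))⟩,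
        mem_bx'.2 h⟩
    · exact ⟨_, mem_nw.2 ⟨Or.inr rfl, h2, z, mem_bx'.2 (h.mono (by simp only; omega))⟩,
        mem_bx'.2 h⟩
  · -- (R4)
    intro v hv
    have far : ∀ z ∈ v.O, ¬ nr (vt δ V) (135 * η) (pos z) := by
      simp only [stt, Finset.image_empty, Finset.sdiff_empty] at hv
      obtain ⟨h, hh, rfl⟩ := Finset.mem_image.1 hv
      intro z hz hz'
      simp only [HD.hole, mem_bx'] at hz
      rcases Finset.mem_union.1 hh with hh | hh
      · obtain ⟨-, V', e', h3, -⟩ := r.h1 h hh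
        rw [e'] at hz
        obtain rfl := vert_eq (by have := r.rad hh; omega) hz hz'
        exact h3.1 (hg.two hV1 hV2)
      · obtain ⟨V', hV', hh⟩ := Finset.mem_biUnion.1 hh
        obtain ⟨b1, b2⟩ := nw_nr hh hz
        obtain rfl := vert_eq (by omega) b1 hz'
        exact hn hV'
    refine ⟨fun z hz hzn => far z hz ?_, fun w hw => ?_⟩
    · simp only [e1, e2, Rect.mem] at hzn
      simp only [nr, vt]; omega
    · rw [Finset.disjoint_left]
      intro z h1 h2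
      obtain ⟨b1, b2⟩ := nw_nr hw (mem_bx'.1 h2)
      exact far z h1 (b1.mono (by omega))

/-- the death move -/
theorem death (C : Ctx δ η Q) (hx : Q.x1 ≤ Q.x0 + 40) (hy : Q.y1 ≤ Q.y0 + 40)
    (hEx : ∀ cn : Cone K0 (128 * η), Ex (cn.A pos) (cn.F pos))
    (r : RD pos δ η New κ HA) (hg : Gen κ Q) (hc : c ∈ I) (hI : ∀ X, Q.ext.mem X → κ X ≠ c) :
    ExchMove Ex I (stt pos δ η κ Q c HA (edges Q) (bd Q))
      ⟨fun z => paint κ Q c (cl δ (pos z)),
        (HA \ olds δ Q HA ∪ news pos δ η κ Q c).image (HD.hole pos)⟩ := by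
  have hδ := C.pos
  have hη := C.eta
  have hd := C.del
  have hX := C.X
  have hY := C.Y
  obtain ⟨cn, hZ, hf⟩ := death_cone (128 * η) (Q.sc δ) ((bd Q).image (vt δ))
    ⟨vt δ (Q.x0, Q.y0), Finset.mem_image_of_mem _ (mem_bd.2 (by
      have := C.hx; have := C.hy; simp only [Cls, Ins]; omega))⟩
    (Finset.card_image_le.trans ((Finset.card_filter_le _ _).trans (card_clsV hx hy)))
  have cast : ((128 * η : ℕ) : ℤ) = 128 * η := by push_cast; ring
  have gle : ∀ z, ∀ V ∈ bd Q, cn.gam z ≤ sd z (vt δ V) := fun z V hV =>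
    cn.gam_le z _ (hZ ▸ Finset.mem_image_of_mem _ hV)
  have hA : ∀ z, z ∈ cn.A pos ↔
      2 * max (cn.gam (pos z)) (128 * η) ≤ 10 * (dep (Q.sc δ) (pos z) + 1) := fun z => by
    rw [mem_A, hf, cast]; omega
  have hF : ∀ z, z ∈ cn.F pos ↔
      10 * (dep (Q.sc δ) (pos z) + 1) ≤ max (cn.gam (pos z)) (128 * η) := fun z => by
    rw [mem_F, hf, cast]; omega
  have hdep : ∀ z, (Q.sc δ).mem z ↔ 0 ≤ dep (Q.sc δ) z := fun z => by
    simp only [Rect.mem, dep]; omega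
  have hcov : ∀ z, (Q.sc δ).mem (pos z) → z ∉ cn.A pos →
      (stt pos δ η κ Q c HA (edges Q) (bd Q)).col z = c := by
    intro z hz hn
    rw [hA, not_le] at hn
    refine if_pos ?_
    by_cases hb : 128 * η ≤ cn.gam (pos z)
    · exact Or.inl (cover C hz (gle _) hb (by omega))
    · obtain ⟨p, hp, e⟩ := cn.gam_eq (pos z)
      rw [hZ] at hp
      obtain ⟨V, hV, rfl⟩ := Finset.mem_image.1 hp
      refine Or.inr ⟨V, hV, hz, ?_⟩
      have := sd_lt_iff.1 (show sd (pos z) (vt δ V) < 128 * η by omega)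
      unfold nr; omega
  -- the four kinds of holes
  have k1 : ∀ h ∈ HA, h ∉ olds δ Q HA → (h.hole pos).O ⊆ cn.F pos := by
    intro h hh ho z hz
    obtain ⟨V, e, hV⟩ := r.out hg hh ho
    have := r.rad hh
    have t1 := mul_tri δ V.1 Q.x0
    have t2 := mul_tri δ V.1 Q.x1
    have t3 := mul_tri δ V.2 Q.y0
    have t4 := mul_tri δ V.2 Q.y1
    simp only [HD.hole, mem_bx', e, nr, vt] at hz
    rw [hF]
    simp only [dep, Rect.sc, Cls] at hV ⊢
    omega
  have k2 : ∀ h ∈ olds δ Q HA, (h.hole pos).O ⊆ cn.A pos := by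
    intro h ho z hz
    obtain ⟨hh, V, hV, e⟩ := mem_olds.1 ho
    have := r.rad hh
    have t1 := mul_step δ hV.1
    have t2 := mul_step δ hV.2.1
    have t3 := mul_step δ hV.2.2.1
    have t4 := mul_step δ hV.2.2.2
    simp only [HD.hole, mem_bx', e, nr, vt] at hz
    have hd' : δ - 14 * η ≤ dep (Q.sc δ) (pos z) + 1 := by simp only [dep, Rect.sc]; omega
    obtain ⟨V', hV', hs⟩ := exists_bd C ((hdep (pos z)).2 (by omega))
    have := gle (pos z) V' hV'
    rw [hA]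
    omega
  have k3 : ∀ V ∈ bd Q, ((⟨vt δ V, η, c⟩ : HD Cl).hole pos).O ⊆ cn.F pos := by
    intro V hV z hz
    have t1 := mul_tri δ V.1 Q.x0
    have t2 := mul_tri δ V.1 Q.x1
    have t3 := mul_tri δ V.2 Q.y0
    have t4 := mul_tri δ V.2 Q.y1
    simp only [HD.hole, mem_bx', nr, vt] at hz
    rw [hF]
    simp only [dep, Rect.sc, mem_bd, Cls, Ins] at hV ⊢
    omega
  have k4 : ∀ V ∈ bd Q, ¬ Two (paint κ Q c) V →
      ((⟨pp δ η Q V, η, c⟩ : HD Cl).hole pos).O ⊆ cn.A pos := by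
    intro V hV h2 z hz
    have cs := (nc_of_not_two C hg hI hV h2).cases C
    have g := gle (pos z) V hV
    simp only [HD.hole, mem_bx'] at hz
    have g' : sd (pos z) (vt δ V) ≤ 135 * η := by
      have := pp_nr hz
      rw [sd_le_iff]; unfold nr at this; omega
    have hd' : 121 * η ≤ dep (Q.sc δ) (pos z) + 1 := by
      simp only [dep, Rect.sc, nr] at hz ⊢; omega
    rw [hA]
    omega
  have dAF := disj_AF (pos := pos) (by omega) cn
  have nF : ∀ v : Hole Λ Cl, v.O.Nonempty → v.O ⊆ cn.A pos → ¬ v.O ⊆ cn.F pos :=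
    fun v ⟨z, hz⟩ h1 h2 => Finset.disjoint_left.1 dAF (h1 hz) (h2 hz)
  refine ⟨cn.A pos, cn.F pos, c, c, dAF, hEx cn, hc, hc, fun z h1 h2 => hcov z ?_ h1, ?_,
    fun z => ?_, ?_⟩
  · rw [hF] at h2
    rw [hdep]
    omega
  · intro v hv
    obtain ⟨h, hh, rfl⟩ := Finset.mem_image.1 hv
    rcases Finset.mem_union.1 hh with hh | hh
    · by_cases ho : h ∈ olds δ Q HA
      · exact Or.inl (k2 h ho)
      · exact Or.inr (k1 h hh ho)
    · obtain ⟨V, hV, hh⟩ := Finset.mem_biUnion.1 hh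
      obtain ⟨rfl | rfl, h2, -⟩ := mem_nw.1 hh
      · exact Or.inr (k3 V hV)
      · exact Or.inl (k4 V hV h2)
  · show paint κ Q c (cl δ (pos z)) = _
    by_cases hz : (Q.sc δ).mem (pos z)
    · rw [paint, if_pos ((mem_cl hδ Q _).2 hz)]
      split_ifs with h
      · rfl
      · exact (hcov z hz h).symm
    · rw [paint, if_neg fun h => hz ((mem_cl hδ Q _).1 h), if_neg]
      · refine (if_neg ?_).symm
        rintro (⟨e, he, hl⟩ | ⟨V, -, h, -⟩)
        · exact hz (ll_mem C (mem_edges.1 he) hl)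
        · exact hz h
      · rw [hdep] at hz
        rw [hA]
        omega
  · ext v
    simp only [stt, Finset.mem_filter, Finset.mem_image, Finset.mem_union, Finset.mem_sdiff,
      Finset.mem_biUnion]
    constructor
    · rintro ⟨h, ⟨h1, h2⟩ | hh, rfl⟩
      · exact ⟨⟨h, Or.inl h1, rfl⟩, k1 h h1 h2⟩
      · obtain ⟨V, hV, rfl⟩ := Finset.mem_image.1 hh
        obtain ⟨b1, b2, b3⟩ := mem_newV.1 hV
        have hV' := mem_bd.2 ⟨b1, not_ins_of_not_two b2⟩
        exact ⟨⟨_, Or.inr ⟨V, hV', mem_nw.2 ⟨Or.inl rfl, b2, b3⟩⟩, rfl⟩, k3 V hV'⟩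
    · rintro ⟨⟨h, hh | ⟨V, hV, hh⟩, rfl⟩, hF'⟩
      · exact ⟨h, Or.inl ⟨hh, fun ho => nF _ (r.h1 h hh).1 (k2 h ho) hF'⟩, rfl⟩
      · obtain ⟨rfl | rfl, h2, h3⟩ := mem_nw.1 hh
        · exact ⟨_, Or.inr (Finset.mem_image_of_mem _ (mem_newV.2 ⟨(mem_bd.1 hV).1, h2, h3⟩)), rfl⟩
        · exact absurd hF' (nF _ h3 (k4 V hV h2))

end Mac

open Mac in
theorem macro_ (rect : RectStmt) : MacroStmt := by
  intro Λ Cl _ _ _ pos Ex Pt η j hη hj hPt hEx New κ Q c I s hrep hg hx1 hx2 hy1 hy2 _ hc hI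
  obtain ⟨hcol, HA, hH, r⟩ := rep_iff.1 hrep
  have C : Ctx (512 * η * j) η Q := ⟨hη, Nat.le_mul_of_pos_right _ hj, hx1, hy1⟩
  have hm : 512 * η * j = η * (512 * j) := by ring
  generalize 512 * η * j = δ at *
  have hI' : ∀ X, Q.ext.mem X → κ X ≠ c ∧ ((∃ z, sd (cl δ (pos z)) X ≤ 1) → κ X ∈ I) := hI
  have s0 : s = stt pos δ η κ Q c HA ∅ ∅ := by
    obtain ⟨col, H⟩ := s
    simp only [stt, Finset.biUnion_empty, Finset.union_empty, CSt.mk.injEq]
    exact ⟨funext fun z => by rw [colr, if_neg (by simp)]; exact hcol z, hH⟩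
  have S1 := seg_finset (Ex := Ex) (Pt := Pt) (I := I) (edges Q)
    (fun E => stt pos δ η κ Q c HA E ∅) fun E hE e he hn => Or.inl (birth C hEx r hg hc hI' hE he hn)
  have S2 := seg_finset (Ex := Ex) (Pt := Pt) (I := I) (bd Q)
    (fun T => stt pos δ η κ Q c HA (edges Q) T) fun T _ V hV hn =>
      Or.inr (Or.inl (localPaint rect C hm hPt r hg hc hI' hV hn))
  have S3 := Seg.single (Pt := Pt)
    (Or.inl (death C hx2 hy2 hEx r hg hc fun X hX => (hI' X hX).1))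
  refine ⟨_, _, ?_, s0 ▸ (S1.append S2).append S3,
    rep_iff.2 ⟨fun _ => rfl, _, rfl, r.paint C.pos hg⟩⟩
  have := card_edges hx2 hy2
  have : (bd Q).card ≤ 1681 := (Finset.card_filter_le _ _).trans (card_clsV hx2 hy2)
  unfold K0
  omega

end Crest.Agent.N336.P.Geo
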