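import Crest.Agent.N336.P.Geo.Defs

/-!
# Row 336, painter schedule: painting a rectangle by unit patches (`RectStmt`) (helper32)
-/

set_option autoImplicit false

namespace Crest.Agent.N336.P.Geo

open Crest.MathPhysics.LatticeSpin

section api

variable {Λ : Type} [Fintype Λ]

theorem mem_sq {pos : Λ → ℤ × ℤ} {x y w : ℤ} {a : Λ} :
    a ∈ sq pos x y w ↔
      x ≤ (pos a).1 ∧ (pos a).1 < x + w ∧ y ≤ (pos a).2 ∧ (pos a).2 < y + w := by
  simp [sq]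

theorem mem_bx [DecidableEq Λ] {pos : Λ → ℤ × ℤ} {v : ℤ × ℤ} {r : ℤ} {a : Λ} :
    a ∈ bx pos v r ↔
      v.1 - r ≤ (pos a).1 ∧ (pos a).1 < v.1 + r ∧ v.2 - r ≤ (pos a).2 ∧ (pos a).2 < v.2 + r := by
  rw [bx, mem_sq]
  constructor <;> rintro ⟨h1, h2, h3, h4⟩ <;> refine ⟨h1, ?_, h3, ?_⟩ <;> omega

theorem bx_mono [DecidableEq Λ] {pos : Λ → ℤ × ℤ} {v : ℤ × ℤ} {r r' : ℤ} (h : r ≤ r') :
    bx pos v r ⊆ bx pos v r' := by
  intro a ha
  rw [mem_bx] at ha ⊢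
  omega

theorem sd_lt_iff {z w : ℤ × ℤ} {r : ℤ} :
    sd z w < r ↔ z.1 - w.1 < r ∧ w.1 - z.1 < r ∧ z.2 - w.2 < r ∧ w.2 - z.2 < r := by
  simp only [sd, max_lt_iff, abs_lt]
  omega

end api

section pairs

variable {Cl : Type}

theorem Mem.fst (P : Cl × Cl) : Mem P.1 P := Or.inl rfl

theorem Mem.snd (P : Cl × Cl) : Mem P.2 P := Or.inr rfl

theorem mem_two {P : Cl × Cl} {p p' q : Cl} (hp : Mem p P) (hp' : Mem p' P) (hne : p ≠ p')
    (hq : Mem q P) : q = p ∨ q = p' := by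
  unfold Mem at *
  rcases hp with rfl | rfl <;> rcases hp' with rfl | rfl <;> rcases hq with rfl | rfl <;> simp_all

end pairs

section cell

variable {Λ Cl D : Type}

/-- The colour `p` is seen in `O` outside the inner old holes. -/
def Seen (col : Λ → Cl) (old : Finset D) (oI : D → Finset Λ) (O : Finset Λ) (p : Cl) : Prop :=
  ∃ z ∈ O, (∀ v ∈ old, z ∉ oI v) ∧ col z = p

/-- Two finite sets meet. -/
def Mt (A B : Finset Λ) : Prop := ∃ z, z ∈ A ∧ z ∈ B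

/-- Specification of the pairs of one unit patch with outer set `O`. -/
structure CellSpec (col : Λ → Cl) (inQ : Λ → Prop) (c : Cl) (I : Finset Cl) (old new : Finset D)
    (oI oO oM nI nO : D → Finset Λ) (yy : D → Cl) (pr pr' : D → Cl × Cl) (O : Finset Λ)
    (t : Bool) (pin pout : Cl × Cl) : Prop where
  ha : pin.1 ∈ I ∧ pin.2 ∈ I ∧ pout.1 ∈ I ∧ pout.2 ∈ I
  hb : ∀ p, Seen col old oI O p → Mem p pin
  hc : ∀ v ∈ old, Mt O (oO v) → Meet (pr v) pin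
  hd : Mem c pout
  he : ∀ z ∈ O, ¬ inQ z → (∀ w ∈ new, z ∉ nI w) → Mem (col z) pout
  hf : ∀ w ∈ new, Mt O (nO w) → Meet pout (pr' w)
  hg : t = false → Mem c pin
  hh : t = true → ∃ e, Mem e pout ∧ Seen col old oI O e ∧
    ((∃ p p', p ≠ p' ∧ Seen col old oI O p ∧ Seen col old oI O p' ∧
        ∀ v ∈ old, Mt O (oM v) → Seen col old oI O (yy v) → e = yy v) ∨
      ∃ v ∈ old, Mt O (oO v) ∧ e = yy v)

theorem cell_ex (col : Λ → Cl) (inQ : Λ → Prop) (c : Cl) (I : Finset Cl) (old new : Finset D)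
    (oI oO oM oB nI nO nB : D → Finset Λ) (yy : D → Cl) (pr pr' : D → Cl × Cl) (O : Finset Λ)
    (hc : c ∈ I) (hI : ∀ z ∈ O, col z ∈ I)
    (hR1 : ∃ P : Cl × Cl, ∀ p, Seen col old oI O p → Mem p P)
    (hIB : ∀ v, oI v ⊆ oB v) (hOM : ∀ v, oO v ⊆ oM v) (hMB : ∀ v, Mt O (oM v) → O ⊆ oB v)
    (hR2 : ∀ v ∈ old, (pr v).1 ∈ I ∧ ¬ Mem c (pr v) ∧ c ≠ yy v ∧
      ∀ z ∈ oB v, inQ z ∧ (Mem (col z) (pr v) ∨ col z = yy v))
    (hdis : ∀ v ∈ old, ∀ v' ∈ old, v ≠ v' → Disjoint (oB v) (oB v'))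
    (hNB : ∀ w ∈ new, Mt O (nO w) → O ⊆ nB w)
    (hR3 : ∀ w ∈ new, (∀ z ∈ nB w, Mem (col z) (pr' w)) ∧ ∀ v ∈ old, Disjoint (nB w) (oB v))
    (hR3' : ∀ z ∈ O, ∀ z' ∈ O, ∀ z'' ∈ O, ¬ inQ z → col z' ≠ col z'' → col z' ≠ c → col z'' ≠ c →
      ∃ w ∈ new, z ∈ nI w) :
    ∃ (t : Bool) (pin pout : Cl × Cl),
      CellSpec col inQ c I old new oI oO oM nI nO yy pr pr' O t pin pout := by
  classical
  have hsI : ∀ p, Seen col old oI O p → p ∈ I := by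
    rintro p ⟨z, hz, -, rfl⟩
    exact hI z hz
  have hOM' : ∀ v, Mt O (oO v) → Mt O (oM v) := fun v ⟨z, h1, h2⟩ => ⟨z, h1, hOM v h2⟩
  have huniq : ∀ v ∈ old, ∀ v' ∈ old, Mt O (oM v) → Mt O (oM v') → v = v' := by
    intro v hv v' hv' h h'
    by_contra hne
    obtain ⟨z, hz, -⟩ := id h
    exact Finset.disjoint_left.1 (hdis v hv v' hv' hne) (hMB v h hz) (hMB v' h' hz)
  have hseen : ∀ v ∈ old, Mt O (oM v) → ∀ p, Seen col old oI O p → Mem p (pr v) ∨ p = yy v := by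
    rintro v hv h p ⟨z, hz, -, rfl⟩
    exact ((hR2 v hv).2.2.2 z (hMB v h hz)).2
  have hnew : ∀ w ∈ new, Mt O (nO w) → ∀ p, Seen col old oI O p → Mem p (pr' w) := by
    rintro w hw h p ⟨z, hz, -, rfl⟩
    exact (hR3 w hw).1 z (hNB w hw h hz)
  by_cases h2 : ∃ p p', p ≠ p' ∧ Seen col old oI O p ∧ Seen col old oI O p' ∧ p ≠ c ∧ p' ≠ c
  · -- type O2
    obtain ⟨p, p', hne, hp, hp', hpc, hp'c⟩ := h2
    obtain ⟨P, hP⟩ := hR1
    have hex : ∃ e, Seen col old oI O e ∧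
        ∀ v ∈ old, Mt O (oM v) → Seen col old oI O (yy v) → e = yy v := by
      by_cases h : ∃ v ∈ old, Mt O (oM v) ∧ Seen col old oI O (yy v)
      · obtain ⟨v, hv, hm, hs⟩ := h
        exact ⟨yy v, hs, fun v' hv' hm' _ => by rw [huniq v hv v' hv' hm hm']⟩
      · exact ⟨p, hp, fun v hv hm hs => (h ⟨v, hv, hm, hs⟩).elim⟩
    obtain ⟨e, he, he'⟩ := hex
    refine ⟨true, (p, p'), (c, e), ⟨hsI p hp, hsI p' hp', hc, hsI e he⟩, ?_, ?_, Or.inl rfl, ?_, ?_,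
      by simp, fun _ => ⟨e, Or.inr rfl, he, Or.inl ⟨p, p', hne, hp, hp', he'⟩⟩⟩
    · intro q hq
      exact mem_two (hP p hp) (hP p' hp') hne (hP q hq)
    · intro v hv hm
      rcases hseen v hv (hOM' v hm) p hp with h | h
      · exact ⟨p, h, Or.inl rfl⟩
      · rcases hseen v hv (hOM' v hm) p' hp' with h' | h'
        · exact ⟨p', h', Or.inr rfl⟩
        · exact (hne (h.trans h'.symm)).elim
    · intro z hz hq hn
      obtain ⟨z', hz', -, rfl⟩ := hp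
      obtain ⟨z'', hz'', -, rfl⟩ := hp'
      obtain ⟨w, hw, hzw⟩ := hR3' z hz z' hz' z'' hz'' hq hne hpc hp'c
      exact (hn w hw hzw).elim
    · intro w hw hm
      exact ⟨e, Or.inr rfl, hnew w hw hm e he⟩
  have h2' : ∀ p p', Seen col old oI O p → Seen col old oI O p' → p ≠ c → p' ≠ c → p = p' := by
    intro p p' hp hp' hpc hp'c
    by_contra hne
    exact h2 ⟨p, p', hne, hp, hp', hpc, hp'c⟩
  by_cases h3 : ∃ v ∈ old, Mt O (oO v) ∧ Seen col old oI O (yy v) ∧ ¬ Mem (yy v) (pr v)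
  · -- type Oprob
    obtain ⟨v, hv, hm, hs, -⟩ := h3
    refine ⟨true, (yy v, (pr v).1), (c, yy v), ⟨hsI _ hs, (hR2 v hv).1, hc, hsI _ hs⟩, ?_, ?_,
      Or.inl rfl, ?_, ?_, by simp, fun _ => ⟨yy v, Or.inr rfl, hs, Or.inr ⟨v, hv, hm, rfl⟩⟩⟩
    · intro q hq
      refine Or.inl (h2' q (yy v) hq hs ?_ (hR2 v hv).2.2.1.symm)
      rintro rfl
      rcases hseen v hv (hOM' v hm) q hq with h | h
      · exact (hR2 v hv).2.1 h
      · exact (hR2 v hv).2.2.1 h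
    · intro v' hv' hm'
      rw [huniq v' hv' v hv (hOM' v' hm') (hOM' v hm)]
      exact ⟨(pr v).1, Or.inl rfl, Or.inr rfl⟩
    · intro z hz hq _
      exact (hq ((hR2 v hv).2.2.2 z (hMB v (hOM' v hm) hz)).1).elim
    · intro w hw hm'
      exact ⟨yy v, Or.inr rfl, hnew w hw hm' _ hs⟩
  -- type R
  have hex : ∃ w₀, w₀ ∈ I ∧ (∀ p, Seen col old oI O p → p = w₀ ∨ p = c) ∧
      ∀ v ∈ old, Mt O (oO v) → Mem w₀ (pr v) := by
    by_cases h : ∃ p, Seen col old oI O p ∧ p ≠ c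
    · obtain ⟨p, hp, hpc⟩ := h
      refine ⟨p, hsI p hp, fun q hq => ?_, fun v hv hm => ?_⟩
      · by_cases hqc : q = c
        · exact Or.inr hqc
        · exact Or.inl (h2' q p hq hp hqc hpc)
      · rcases hseen v hv (hOM' v hm) p hp with h | h
        · exact h
        · by_contra hn
          exact h3 ⟨v, hv, hm, h ▸ hp, h ▸ hn⟩
    · have hall : ∀ p, Seen col old oI O p → p = c := by
        intro p hp
        by_contra hn
        exact h ⟨p, hp, hn⟩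
      by_cases h' : ∃ v ∈ old, Mt O (oO v)
      · obtain ⟨v, hv, hm⟩ := h'
        refine ⟨(pr v).1, (hR2 v hv).1, fun q hq => Or.inr (hall q hq), fun v' hv' hm' => ?_⟩
        rw [huniq v' hv' v hv (hOM' v' hm') (hOM' v hm)]
        exact Or.inl rfl
      · exact ⟨c, hc, fun q hq => Or.inr (hall q hq), fun v hv hm => (h' ⟨v, hv, hm⟩).elim⟩
  obtain ⟨w₀, hw₀, hs, hm⟩ := hex
  refine ⟨false, (w₀, c), (w₀, c), ⟨hw₀, hc, hw₀, hc⟩, hs,
    fun v hv h => ⟨w₀, hm v hv h, Or.inl rfl⟩, Or.inr rfl, ?_, ?_, fun _ => Or.inr rfl, by simp⟩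
  · intro z hz hq _
    exact hs _ ⟨z, hz, fun v hv hzv => hq ((hR2 v hv).2.2.2 z (hIB v hzv)).1, rfl⟩
  · intro w hw hm'
    obtain ⟨z, hz, -⟩ := id hm'
    have hzs : Seen col old oI O (col z) :=
      ⟨z, hz, fun v hv hzv =>
        Finset.disjoint_left.1 ((hR3 w hw).2 v hv) (hNB w hw hm' hz) (hIB v hzv), rfl⟩
    exact ⟨col z, hs _ hzs, hnew w hw hm' _ hzs⟩

/-- Two overlapping patches of the first kind are compatible. -/
theorem cell_pair {col : Λ → Cl} {inQ : Λ → Prop} {c : Cl} {I : Finset Cl} {old new : Finset D}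
    {oI oO oM oB nI nO : D → Finset Λ} {yy : D → Cl} {pr pr' : D → Cl × Cl} {O O' : Finset Λ}
    {pin pout pin' pout' : Cl × Cl}
    (h : CellSpec col inQ c I old new oI oO oM nI nO yy pr pr' O true pin pout)
    (h' : CellSpec col inQ c I old new oI oO oM nI nO yy pr pr' O' true pin' pout')
    (hR1 : ∃ P : Cl × Cl, (∀ p, Seen col old oI O p → Mem p P) ∧
      ∀ p, Seen col old oI O' p → Mem p P)
    (hOM : ∀ v, oO v ⊆ oM v) (hMB : ∀ v, Mt O (oM v) → O ⊆ oB v)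
    (hdis : ∀ v ∈ old, ∀ v' ∈ old, v ≠ v' → Disjoint (oB v) (oB v'))
    (hOO : ∀ v, Mt O' (oO v) → Mt O (oM v)) : Meet pout pin' := by
  obtain ⟨P, hP, hP'⟩ := hR1
  obtain ⟨e, he, hs, hcase⟩ := h.hh rfl
  obtain ⟨e', -, hs', hcase'⟩ := h'.hh rfl
  refine ⟨e, he, ?_⟩
  rcases hcase' with ⟨p, p', hne, hp, hp', -⟩ | ⟨v', hv', hm', rfl⟩
  · rcases mem_two (hP' p hp) (hP' p' hp') hne (hP e hs) with rfl | rfl
    · exact h'.hb _ hp
    · exact h'.hb _ hp'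
  · have hm := hOO v' hm'
    rcases hcase with ⟨p, p', hne, hp, hp', hall⟩ | ⟨v, hv, hmv, rfl⟩
    · have : Seen col old oI O (yy v') := by
        rcases mem_two (hP p hp) (hP p' hp') hne (hP' _ hs') with h1 | h1 <;> rw [h1] <;> assumption
      rw [hall v' hv' hm this]
      exact h'.hb _ hs'
    · have hvv : v = v' := by
        by_contra hne
        obtain ⟨z, hz, hzv⟩ := hmv
        exact Finset.disjoint_left.1 (hdis v hv v' hv' hne)
          (hMB v ⟨z, hz, hOM v hzv⟩ hz) (hMB v' hm hz)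
      rw [hvv]
      exact h'.hb _ hs'

end cell

/-- A descriptor of a hole. -/
theorem ex_desc {A B C : Type} [DecidableEq B] (S : Finset A) (f : A → B) (g : A → C) (c : C) :
    ∃ g' : B → C, ∀ b ∈ S.image f, ∃ a ∈ S, f a = b ∧ g' b = g a := by
  classical
  refine ⟨fun b => if h : ∃ a ∈ S, f a = b then g h.choose else c, fun b hb => ?_⟩
  have h : ∃ a ∈ S, f a = b := Finset.mem_image.1 hb
  exact ⟨h.choose, h.choose_spec.1, h.choose_spec.2, by simp [h]⟩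

theorem rect : RectStmt := by
  intro Λ Cl _ _ _ pos Pt η Q c I s s' old new yy pr pr' hη hPt hx hy hold hnew inQ nearQ
    hin hout hsub hH hc hnear hR1 hR2 hdis hR3 hR3' hR4
  classical
  have hη' : (1 : ℤ) ≤ η := by exact_mod_cast hη
  have inQ_iff : ∀ z, inQ z ↔ η * Q.x0 ≤ (pos z).1 ∧ (pos z).1 < η * Q.x1 ∧
      η * Q.y0 ≤ (pos z).2 ∧ (pos z).2 < η * Q.y1 := fun z => Iff.rfl
  have nearQ_iff : ∀ z, nearQ z ↔ η * Q.x0 - η ≤ (pos z).1 ∧ (pos z).1 < η * Q.x1 + η ∧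
      η * Q.y0 - η ≤ (pos z).2 ∧ (pos z).2 < η * Q.y1 + η := fun z => Iff.rfl
  have hin_near : ∀ z, inQ z → nearQ z := by
    intro z hz
    rw [inQ_iff] at hz
    rw [nearQ_iff]
    omega
  -- cells
  set S : Finset (ℤ × ℤ) := Finset.Ico Q.x0 Q.x1 ×ˢ Finset.Ico Q.y0 Q.y1 with hS
  let cI : ℤ × ℤ → Finset Λ := fun k => sq pos (η * k.1) (η * k.2) (η : ℕ)
  let cO : ℤ × ℤ → Finset Λ := fun k => sq pos (η * k.1 - η) (η * k.2 - η) ((η : ℕ) + 2 * η)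
  have hcO : ∀ k z, z ∈ cO k ↔ η * k.1 - η ≤ (pos z).1 ∧ (pos z).1 < η * k.1 + 2 * η ∧
      η * k.2 - η ≤ (pos z).2 ∧ (pos z).2 < η * k.2 + 2 * η := by
    intro k z
    simp only [cO, mem_sq]
    omega
  have hOnear : ∀ k ∈ S, ∀ z ∈ cO k, nearQ z := by
    intro k hk z hz
    rw [hS, Finset.mem_product, Finset.mem_Ico, Finset.mem_Ico] at hk
    rw [hcO] at hz
    rw [nearQ_iff]
    have h1 : (η : ℤ) * Q.x0 ≤ η * k.1 := mul_le_mul_of_nonneg_left hk.1.1 (by omega)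
    have h2 : (η : ℤ) * (k.1 + 1) ≤ η * Q.x1 := mul_le_mul_of_nonneg_left hk.1.2 (by omega)
    have h3 : (η : ℤ) * Q.y0 ≤ η * k.2 := mul_le_mul_of_nonneg_left hk.2.1 (by omega)
    have h4 : (η : ℤ) * (k.2 + 1) ≤ η * Q.y1 := mul_le_mul_of_nonneg_left hk.2.2 (by omega)
    rw [mul_add, mul_one] at h2 h4
    omega
  have hcover : ∀ z, inQ z → ∃ k ∈ S, z ∈ cI k := by
    intro z hz
    rw [inQ_iff] at hz
    have hpos : (0 : ℤ) < η := by omega
    refine ⟨((pos z).1 / η, (pos z).2 / η), ?_, ?_⟩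
    · rw [hS, Finset.mem_product, Finset.mem_Ico, Finset.mem_Ico]
      refine ⟨⟨?_, ?_⟩, ?_, ?_⟩
      · exact Int.le_ediv_of_mul_le hpos (by rw [mul_comm]; exact hz.1)
      · exact Int.ediv_lt_of_lt_mul hpos (by rw [mul_comm]; exact hz.2.1)
      · exact Int.le_ediv_of_mul_le hpos (by rw [mul_comm]; exact hz.2.2.1)
      · exact Int.ediv_lt_of_lt_mul hpos (by rw [mul_comm]; exact hz.2.2.2)
    · simp only [cI, mem_sq]
      have h1 := Int.mul_ediv_add_emod (pos z).1 η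
      have h2 := Int.mul_ediv_add_emod (pos z).2 η
      have h3 := Int.emod_nonneg (pos z).1 hpos.ne'
      have h4 := Int.emod_nonneg (pos z).2 hpos.ne'
      have h5 := Int.emod_lt_of_pos (pos z).1 hpos
      have h6 := Int.emod_lt_of_pos (pos z).2 hpos
      omega
  have hgrow : ∀ k (v : ℤ × ℤ) (r : ℤ), Mt (cO k) (bx pos v r) → cO k ⊆ bx pos v (r + 3 * η) := by
    rintro k v r ⟨z, hz, hzv⟩ z' hz'
    rw [hcO] at hz hz'
    rw [mem_bx] at hzv ⊢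
    omega
  let oI : HD Cl → Finset Λ := fun v => (v.hole pos).I
  let oO : HD Cl → Finset Λ := fun v => (v.hole pos).O
  let oM : HD Cl → Finset Λ := fun v => bx pos v.v (7 * v.e + 3 * η)
  let oB : HD Cl → Finset Λ := fun v => bx pos v.v (7 * v.e + 6 * η)
  let nB : HD Cl → Finset Λ := fun w => bx pos w.v (10 * η)
  have hIB : ∀ v, oI v ⊆ oB v := fun v => bx_mono (by omega)
  have hOB : ∀ v, oO v ⊆ oB v := fun v => bx_mono (by omega)
  have hOM : ∀ v, oO v ⊆ oM v := fun v => bx_mono (by omega)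
  have hMB : ∀ k v, Mt (cO k) (oM v) → cO k ⊆ oB v := fun k v h =>
    (hgrow k _ _ h).trans (bx_mono (by omega))
  have hONB : ∀ w ∈ new, oO w ⊆ nB w := fun w hw => bx_mono (by rw [(hR3 w hw).1]; omega)
  have hbox : ∀ k ∈ S, ∀ k' ∈ S, Mt (cO k) (cO k') → ∃ P : Cl × Cl,
      (∀ p, Seen s.col old oI (cO k) p → Mem p P) ∧ ∀ p, Seen s.col old oI (cO k') p → Mem p P := by
    rintro k hk k' hk' ⟨z₀, h₀, h₀'⟩
    obtain ⟨P, hP⟩ := hR1 ((pos z₀).1 - 3 * η) ((pos z₀).2 - 3 * η)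
    refine ⟨P, ?_, ?_⟩
    · rintro p ⟨z, hz, hzo, rfl⟩
      refine hP z ?_ (hOnear k hk z hz) hzo
      rw [hcO] at hz h₀
      rw [mem_sq]
      omega
    · rintro p ⟨z, hz, hzo, rfl⟩
      refine hP z ?_ (hOnear k' hk' z hz) hzo
      rw [hcO] at hz h₀'
      rw [mem_sq]
      omega
  have hcell : ∀ k : ℤ × ℤ, ∃ (t : Bool) (pin pout : Cl × Cl), k ∈ S →
      CellSpec s.col inQ c I old new oI oO oM oI oO yy pr pr' (cO k) t pin pout := by
    intro k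
    by_cases hk : k ∈ S
    swap
    · exact ⟨false, (c, c), (c, c), fun h => (hk h).elim⟩
    obtain ⟨t, pin, pout, h⟩ := cell_ex s.col inQ c I old new oI oO oM oB oI oO nB yy pr pr' (cO k)
      hc (fun z hz => hnear z (hOnear k hk z hz))
      (by
        by_cases hne : (cO k).Nonempty
        · obtain ⟨z, hz⟩ := hne
          obtain ⟨P, hP, -⟩ := hbox k hk k hk ⟨z, hz, hz⟩
          exact ⟨P, hP⟩
        · exact ⟨(c, c), fun p ⟨z, hz, _⟩ => (hne ⟨z, hz⟩).elim⟩)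
      hIB hOM (hMB k)
      (fun v hv => ⟨(hR2 v hv).1, (hR2 v hv).2.2.2.1, (hR2 v hv).2.2.2.2.1, (hR2 v hv).2.2.2.2.2⟩)
      hdis
      (fun w hw h => (hgrow k _ _ h).trans (bx_mono (by rw [(hR3 w hw).1]; omega)))
      (fun w hw => ⟨(hR3 w hw).2.2.2.2.2.1, (hR3 w hw).2.2.2.2.2.2.1⟩)
      (fun z hz z' hz' z'' hz'' hq hne h1 h2 => by
        refine hR3' z z' z'' (hOnear k hk z hz) (hOnear k hk z' hz') (hOnear k hk z'' hz'') hq
          ?_ ?_ ?_ hne h1 h2 <;> rw [hcO] at hz hz' hz'' <;> rw [sd_lt_iff] <;> omega)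
    exact ⟨t, pin, pout, fun _ => h⟩
  choose t pin pout hspec using hcell
  let mk : ℤ × ℤ → Patch Λ Cl := fun k => ⟨cI k, cO k, pin k, pout k⟩
  let l₁ : List (Patch Λ Cl) := (S.filter fun k => t k = true).toList.map mk
  let l₂ : List (Patch Λ Cl) := (S.filter fun k => t k = false).toList.map mk
  have hl₁ : ∀ κ ∈ l₁, ∃ k ∈ S, t k = true ∧ mk k = κ := by
    intro κ hκ
    obtain ⟨k, hk, rfl⟩ := List.mem_map.1 hκ
    rw [Finset.mem_toList, Finset.mem_filter] at hk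
    exact ⟨k, hk.1, hk.2, rfl⟩
  have hl₂ : ∀ κ ∈ l₂, ∃ k ∈ S, t k = false ∧ mk k = κ := by
    intro κ hκ
    obtain ⟨k, hk, rfl⟩ := List.mem_map.1 hκ
    rw [Finset.mem_toList, Finset.mem_filter] at hk
    exact ⟨k, hk.1, hk.2, rfl⟩
  have hl : ∀ κ ∈ l₁ ++ l₂, ∃ k ∈ S, mk k = κ := by
    intro κ hκ
    rcases List.mem_append.1 hκ with h | h
    · obtain ⟨k, hk, -, h⟩ := hl₁ κ h
      exact ⟨k, hk, h⟩
    · obtain ⟨k, hk, -, h⟩ := hl₂ κ h
      exact ⟨k, hk, h⟩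
  have hl' : ∀ k ∈ S, mk k ∈ l₁ ++ l₂ := by
    intro k hk
    rw [List.mem_append]
    cases h : t k
    · exact Or.inr (List.mem_map.2 ⟨k, by simp [hk, h], rfl⟩)
    · exact Or.inl (List.mem_map.2 ⟨k, by simp [hk, h], rfl⟩)
  have hcov : ∀ z, inQ z → ∃ κ ∈ l₁ ++ l₂, z ∈ κ.I := by
    intro z hz
    obtain ⟨k, hk, hzk⟩ := hcover z hz
    exact ⟨mk k, hl' k hk, hzk⟩
  obtain ⟨qr, hqr⟩ := ex_desc old (HD.hole pos) pr (c, c)
  obtain ⟨qr', hqr'⟩ := ex_desc new (HD.hole pos) pr' (c, c)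
  have hfalse : ∀ κ ∈ l₁ ++ l₂, ∀ κ' ∈ l₂, ¬ Disjoint κ.O κ'.O → Meet κ.pout κ'.pin := by
    intro κ hκ κ' hκ' _
    obtain ⟨k, hk, rfl⟩ := hl κ hκ
    obtain ⟨k', hk', ht, rfl⟩ := hl₂ κ' hκ'
    exact ⟨c, (hspec k hk).hd, (hspec k' hk').hg ht⟩
  refine ⟨old.image (HD.hole pos), new.image (HD.hole pos), qr, qr', l₁ ++ l₂, hsub, hH, ?_, ?_, ?_,
    ?_, ?_, ?_, ?_, ?_, ?_, ?_, ?_, ?_, ?_, ?_⟩
  · rw [Finset.disjoint_left]
    intro v hv hv'
    obtain ⟨w, hw, rfl⟩ := Finset.mem_image.1 hv'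
    obtain ⟨z, hz⟩ := (hR3 w hw).2.1
    exact Finset.disjoint_left.1 ((hR4 _ hv).2 w hw) hz hz
  · have h1 : (old.image (HD.hole pos)).card ≤ 10000 := Finset.card_image_le.trans hold
    have h2 : (new.image (HD.hole pos)).card ≤ 10000 := Finset.card_image_le.trans hnew
    have h3 : (l₁ ++ l₂).length = S.card := by
      simp only [l₁, l₂, List.length_append, List.length_map, Finset.length_toList]
      rw [← Finset.card_filter_add_card_filter_not (s := S) (fun k => t k = true)]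
      simp
    have h4 : S.card ≤ 20000 * 20000 := by
      rw [hS, Finset.card_product, Int.card_Ico, Int.card_Ico]
      exact Nat.mul_le_mul (by omega) (by omega)
    unfold K0
    omega
  · intro κ hκ
    obtain ⟨k, hk, rfl⟩ := hl κ hκ
    exact ⟨hPt η _ _ (by omega), (hspec k hk).ha⟩
  · intro w0 hw0
    obtain ⟨w, hw, rfl, hq⟩ := hqr' w0 hw0
    obtain ⟨he, -, h1, h2, h3, h4, -⟩ := hR3 w hw
    refine ⟨?_, hq ▸ h1, hq ▸ h2, h3, fun z hz => ?_⟩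
    · have := hPt (12 * η) (w.v.1 - 6 * η) (w.v.2 - 6 * η) (by omega)
      simp only [HD.hole, bx, he]
      convert this using 2 <;> push_cast <;> ring
    · by_cases hz' : inQ z
      · rw [hin z hz']
        exact hc
      · rw [hout z hz']
        rcases h4 z (hONB w hw hz) with h | h <;> rw [h] <;> assumption
  · intro v0 hv0
    obtain ⟨v, hv, rfl, hq⟩ := hqr v0 hv0
    obtain ⟨h1, h2, h3, -, -, h4⟩ := hR2 v hv
    exact ⟨hq ▸ h1, hq ▸ h2, h3, fun z hz => hnear z (hin_near z (h4 z (hOB v hz)).1)⟩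
  · intro v hv
    refine ⟨fun κ hκ => ?_, fun w0 hw0 => ?_⟩
    · obtain ⟨k, hk, rfl⟩ := hl κ hκ
      exact Finset.disjoint_left.2 fun z hz hz' => (hR4 v hv).1 z hz (hOnear k hk z hz')
    · obtain ⟨w, hw, rfl⟩ := Finset.mem_image.1 hw0
      exact (hR4 v hv).2 w hw
  · intro w0 hw0 w0' hw0' hne
    obtain ⟨w, hw, rfl⟩ := Finset.mem_image.1 hw0
    obtain ⟨w', hw', rfl⟩ := Finset.mem_image.1 hw0'
    exact (hR3 w hw).2.2.2.2.2.2.2 w' hw' fun h => hne (by rw [h])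
  · intro κ hκ z hz hzo
    obtain ⟨k, hk, rfl⟩ := hl κ hκ
    exact (hspec k hk).hb _ ⟨z, hz, fun v hv => hzo _ (Finset.mem_image_of_mem _ hv), rfl⟩
  · intro w0 hw0 z hz _
    obtain ⟨w, hw, rfl, hq⟩ := hqr' w0 hw0
    rw [hq]
    exact (hR3 w hw).2.2.2.2.2.1 z (hONB w hw hz)
  · intro z hz _
    refine hout z fun hq => ?_
    obtain ⟨κ, hκ, hzκ⟩ := hcov z hq
    exact hz κ hκ hzκ
  · intro v0 hv0
    obtain ⟨v, hv, rfl, hq⟩ := hqr v0 hv0
    refine ⟨fun z hz => hcov z ((hR2 v hv).2.2.2.2.2 z (hOB v hz)).1, fun κ hκ hd => ?_⟩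
    obtain ⟨k, hk, rfl⟩ := hl κ hκ
    obtain ⟨z, hz, hz'⟩ := Finset.not_disjoint_iff.1 hd
    rw [hq]
    exact (hspec k hk).hc v hv ⟨z, hz', hz⟩
  · rw [List.pairwise_append]
    refine ⟨List.pairwise_of_forall_mem_list fun κ hκ κ' hκ' hd => ?_,
      List.pairwise_of_forall_mem_list fun κ hκ κ' hκ' =>
        hfalse κ (List.mem_append_right _ hκ) κ' hκ',
      fun κ hκ κ' hκ' => hfalse κ (List.mem_append_left _ hκ) κ' hκ'⟩
    obtain ⟨k, hk, ht, rfl⟩ := hl₁ κ hκ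
    obtain ⟨k', hk', ht', rfl⟩ := hl₁ κ' hκ'
    obtain ⟨z, hz, hz'⟩ := Finset.not_disjoint_iff.1 hd
    exact cell_pair (oB := oB) (ht ▸ hspec k hk) (ht' ▸ hspec k' hk') (hbox k hk k' hk' ⟨z, hz, hz'⟩)
      hOM (hMB k) hdis fun v hm => ⟨z, hz, hgrow k' _ _ hm hz'⟩
  · intro κ hκ w0 hw0 hd
    obtain ⟨k, hk, rfl⟩ := hl κ hκ
    obtain ⟨w, hw, rfl, hq⟩ := hqr' w0 hw0
    obtain ⟨z, hz, hz'⟩ := Finset.not_disjoint_iff.1 hd
    rw [hq]
    exact (hspec k hk).hf w hw ⟨z, hz, hz'⟩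
  · intro κ hκ z hz hzn
    obtain ⟨k, hk, rfl⟩ := hl κ hκ
    by_cases hz' : inQ z
    · rw [hin z hz']
      exact (hspec k hk).hd
    · rw [hout z hz']
      exact (hspec k hk).he z hz hz' fun w hw => hzn _ (Finset.mem_image_of_mem _ hw)

end Crest.Agent.N336.P.Geo
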