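import Crest.Agent.N336.P.Geo.Defs

/-!
# Row 336, painter schedule: `routes : RoutesStmt` (helper43)
-/

set_option autoImplicit false

namespace Crest.Agent.N336.P.Geo

open Crest.MathPhysics.LatticeSpin

namespace Rou

section conn

variable {L : ℕ}

theorem reach_col (S : Set (Fin L × Fin L)) (x : Fin L) (y y' : Fin L)
    (h : ∀ t : Fin L, min y y' ≤ t → t ≤ max y y' → (x, t) ∈ S) (hy : (x, y) ∈ S)
    (hy' : (x, y') ∈ S) : ((gridGraph L).induce S).Reachable ⟨_, hy⟩ ⟨_, hy'⟩ := by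
  wlog hle : y ≤ y' generalizing y y'
  · refine (this y' y (fun t h1 h2 => h t ?_ ?_) hy' hy (le_of_not_ge hle)).symm
    · rwa [min_comm]
    · rwa [max_comm]
  rw [min_eq_left hle, max_eq_right hle] at h
  obtain ⟨k, hk⟩ := y'
  have hle' : y.val ≤ k := hle
  induction k, hle' using Nat.le_induction with
  | base => rfl
  | succ k hyk ih =>
    have hk' : k < L := by omega
    have hm : (x, (⟨k, hk'⟩ : Fin L)) ∈ S := h _ hyk (Nat.le_succ k)
    refine (ih hk' (fun t h1 h2 => h t h1 (le_trans h2 (Nat.le_succ k))) hm hyk).trans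
      (SimpleGraph.Adj.reachable ?_)
    simp only [SimpleGraph.comap_adj, Function.Embedding.coe_subtype, gridGraph,
      SimpleGraph.fromRel_adj]
    refine ⟨by simp [Fin.ext_iff], Or.inl ?_⟩
    simp

theorem reach_row (S : Set (Fin L × Fin L)) (y : Fin L) (x x' : Fin L)
    (h : ∀ t : Fin L, min x x' ≤ t → t ≤ max x x' → (t, y) ∈ S) (hx : (x, y) ∈ S)
    (hx' : (x', y) ∈ S) : ((gridGraph L).induce S).Reachable ⟨_, hx⟩ ⟨_, hx'⟩ := by
  wlog hle : x ≤ x' generalizing x x'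
  · refine (this x' x (fun t h1 h2 => h t ?_ ?_) hx' hx (le_of_not_ge hle)).symm
    · rwa [min_comm]
    · rwa [max_comm]
  rw [min_eq_left hle, max_eq_right hle] at h
  obtain ⟨k, hk⟩ := x'
  have hle' : x.val ≤ k := hle
  induction k, hle' using Nat.le_induction with
  | base => rfl
  | succ k hyk ih =>
    have hk' : k < L := by omega
    have hm : ((⟨k, hk'⟩ : Fin L), y) ∈ S := h _ hyk (Nat.le_succ k)
    refine (ih hk' (fun t h1 h2 => h t h1 (le_trans h2 (Nat.le_succ k))) hm hyk).trans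
      (SimpleGraph.Adj.reachable ?_)
    simp only [SimpleGraph.comap_adj, Function.Embedding.coe_subtype, gridGraph,
      SimpleGraph.fromRel_adj]
    refine ⟨by simp [Fin.ext_iff], Or.inl ?_⟩
    simp

/-- The window of index `a` for the unit `u`. -/
def Win (u a x : ℕ) : Prop := a ≤ x / u + 8 ∧ x / u ≤ a + 8

theorem Win.btw {u a : ℕ} {x x' t : Fin L} (h : Win u a x) (h' : Win u a x') (h1 : min x x' ≤ t)
    (h2 : t ≤ max x x') : Win u a t := by
  rcases le_total x x' with hle | hle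
  · rw [min_eq_left hle] at h1
    rw [max_eq_right hle] at h2
    have e1 : x.val / u ≤ t.val / u := Nat.div_le_div_right h1
    have e2 : t.val / u ≤ x'.val / u := Nat.div_le_div_right h2
    exact ⟨by have := h.1; omega, by have := h'.2; omega⟩
  · rw [min_eq_right hle] at h1
    rw [max_eq_left hle] at h2
    have e1 : x'.val / u ≤ t.val / u := Nat.div_le_div_right h1
    have e2 : t.val / u ≤ x.val / u := Nat.div_le_div_right h2
    exact ⟨by have := h'.1; omega, by have := h.2; omega⟩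

open Classical in
/-- The mesh `M` inside a window. -/
noncomputable def mesh (L u a b : ℕ) (M : ℕ → Prop) : Finset (Fin L × Fin L) :=
  Finset.univ.filter fun z => Win u a z.1 ∧ Win u b z.2 ∧ (M z.1 ∨ M z.2)

theorem mem_mesh {u a b : ℕ} {M : ℕ → Prop} {z : Fin L × Fin L} :
    z ∈ mesh L u a b M ↔ Win u a z.1 ∧ Win u b z.2 ∧ (M z.1 ∨ M z.2) := by
  simp [mesh]

theorem mesh_conn {u a b : ℕ} {M : ℕ → Prop} (x y : Fin L) (hx : Win u a x) (hy : Win u b y)
    (hx' : M x) (hy' : M y) :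
    ((gridGraph L).induce (mesh L u a b M : Set (Fin L × Fin L))).Connected := by
  have h0 : (x, y) ∈ (mesh L u a b M : Set (Fin L × Fin L)) :=
    Finset.mem_coe.2 (mem_mesh.2 ⟨hx, hy, Or.inl hx'⟩)
  have key : ∀ z : (mesh L u a b M : Set (Fin L × Fin L)),
      ((gridGraph L).induce (mesh L u a b M : Set (Fin L × Fin L))).Reachable z ⟨_, h0⟩ := by
    rintro ⟨⟨s, t⟩, hz⟩
    obtain ⟨h1, h2, h3 | h3⟩ := mem_mesh.1 (Finset.mem_coe.1 hz)
    · have hm : (s, y) ∈ (mesh L u a b M : Set (Fin L × Fin L)) :=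
        Finset.mem_coe.2 (mem_mesh.2 ⟨h1, hy, Or.inl h3⟩)
      exact (reach_col _ s t y (fun r e1 e2 => Finset.mem_coe.2 (mem_mesh.2
        ⟨h1, Win.btw h2 hy e1 e2, Or.inl h3⟩)) hz hm).trans
        (reach_row _ y s x (fun r e1 e2 => Finset.mem_coe.2 (mem_mesh.2
        ⟨Win.btw h1 hx e1 e2, hy, Or.inr hy'⟩)) hm h0)
    · have hm : (x, t) ∈ (mesh L u a b M : Set (Fin L × Fin L)) :=
        Finset.mem_coe.2 (mem_mesh.2 ⟨hx, h2, Or.inr h3⟩)
      exact (reach_row _ t s x (fun r e1 e2 => Finset.mem_coe.2 (mem_mesh.2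
        ⟨Win.btw h1 hx e1 e2, h2, Or.inr h3⟩)) hz hm).trans
        (reach_col _ x t y (fun r e1 e2 => Finset.mem_coe.2 (mem_mesh.2
        ⟨hx, Win.btw h2 hy e1 e2, Or.inl hx'⟩)) hm h0)
  have : Nonempty (mesh L u a b M : Set (Fin L × Fin L)) := ⟨⟨_, h0⟩⟩
  exact ⟨fun z z' => (key z).trans (key z').symm⟩

end conn

/-- The unit of generation `i`. -/
def un (i : ℕ) : ℕ := 32 * del i

theorem un_eq (i : ℕ) : un i = 8192 * 2 ^ i := by unfold un del; ring

theorem un_pos (i : ℕ) : 0 < un i := by rw [un_eq]; positivity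

theorem un_succ (i : ℕ) : un (i + 1) = un i * 2 := by rw [un_eq, un_eq]; ring

theorem un_mono {i j : ℕ} (h : i ≤ j) : un i ≤ un j := by
  rw [un_eq, un_eq]
  exact Nat.mul_le_mul_left _ (Nat.pow_le_pow_right (by norm_num) h)

/-- Clamped index. -/
def mu (L i a : ℕ) : ℕ := min a (L / un i - 1)

/-- Coordinate of the location of index `a` in generation `i`. -/
def ps (L i a : ℕ) : ℕ := un i * mu L i a + (2 ^ i - 1)

/-- The level of a coordinate. -/
def lv (x : ℕ) : ℕ := padicValNat 2 (x + 1)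

theorem lv_ps (L i a : ℕ) : lv (ps L i a) = i := by
  have h : ps L i a + 1 = 2 ^ i * (8192 * mu L i a + 1) := by
    have : 1 ≤ 2 ^ i := Nat.one_le_two_pow
    rw [ps, un_eq, add_assoc, Nat.sub_add_cancel this]; ring
  rw [lv, h, padicValNat.mul (by positivity) (by omega), padicValNat.prime_pow,
    padicValNat.eq_zero_of_not_dvd (by omega), add_zero]

theorem ps_div (L i a : ℕ) : ps L i a / un i = mu L i a := by
  have h : 2 ^ i - 1 < un i := by
    have : 1 ≤ 2 ^ i := Nat.one_le_two_pow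
    rw [un_eq]; omega
  rw [ps, Nat.mul_add_div (un_pos i), Nat.div_eq_of_lt h, add_zero]

theorem ps_div_succ (L i a : ℕ) : ps L (i + 1) a / un i = 2 * mu L (i + 1) a := by
  have h : 2 ^ (i + 1) - 1 < un i := by
    have : 1 ≤ 2 ^ i := Nat.one_le_two_pow
    rw [un_eq, pow_succ]; omega
  rw [ps, un_succ, mul_assoc, Nat.mul_add_div (un_pos i), Nat.div_eq_of_lt h, add_zero]

theorem ps_lt {L i : ℕ} (h : un i ≤ L) (a : ℕ) : ps L i a < L := by
  have h1 : 1 ≤ L / un i := (Nat.one_le_div_iff (un_pos i)).2 h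
  have h2 : ps L i a / un i < L / un i := by
    rw [ps_div, mu]; omega
  exact Nat.lt_of_div_lt_div h2

theorem amax_eq (L i : ℕ) : amax L i = L / un i + 1 := rfl

theorem amax_lt (L i : ℕ) : amax L i < L + 2 := by
  have := Nat.div_le_self L (un i)
  rw [amax_eq]; omega

theorem mu_bd {L i a : ℕ} (ha : a ≤ amax L i) : mu L i a ≤ a ∧ a ≤ mu L i a + 2 := by
  rw [amax_eq] at ha
  rw [mu]; omega

theorem pty_zero {L a b : ℕ} (ha : a ≤ amax L 0) (hb : b ≤ amax L 0) :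
    pty L 0 a b = some (⟨0, by omega⟩, ⟨a, ha.trans_lt (amax_lt _ _)⟩,
      ⟨b, hb.trans_lt (amax_lt _ _)⟩) := by
  have h1 := ha.trans_lt (amax_lt _ _)
  have h2 := hb.trans_lt (amax_lt _ _)
  unfold pty
  rw [dif_pos (by simp; omega)]
  simp

theorem mem_BS {L top : ℕ} {b : Blk} : b ∈ BS L top ↔ b.2.1 ≤ top ∧ b.2.2.1 ≤ amax L b.2.1 ∧
    b.2.2.2 ≤ amax L b.2.1 ∧ (b.1 = true → b.2.1 = 0) := by
  have := amax_lt L b.2.1
  simp only [BS, Finset.mem_filter, Finset.mem_product, Finset.mem_univ, Finset.mem_range, true_and]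
  constructor
  · rintro ⟨⟨h1, -, -⟩, h2, h3, h4⟩
    exact ⟨by omega, h2, h3, h4⟩
  · rintro ⟨h1, h2, h3, h4⟩
    exact ⟨⟨by omega, by omega, by omega⟩, h2, h3, h4⟩

theorem none_mem_NbI {L top : ℕ} {b : Blk} : none ∈ NbI L top b ↔ b.2.1 = top := by
  simp [NbI]

theorem some_mem_NbI {L top : ℕ} {b : Blk} {i a' b' : Fin (L + 2)} :
    some (i, a', b') ∈ NbI L top b ↔ a'.1 ≤ amax L i ∧ b'.1 ≤ amax L i ∧
      ((i.1 = b.2.1 ∧ a'.1 ≤ b.2.2.1 + 1 ∧ b.2.2.1 ≤ a'.1 + 1 ∧ b'.1 ≤ b.2.2.2 + 1 ∧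
          b.2.2.2 ≤ b'.1 + 1) ∨
        (i.1 = b.2.1 + 1 ∧ i.1 ≤ top ∧ a'.1 ≤ b.2.2.1 / 2 + 1 ∧ b.2.2.1 / 2 ≤ a'.1 + 1 ∧
          b'.1 ≤ b.2.2.2 / 2 + 1 ∧ b.2.2.2 / 2 ≤ b'.1 + 1)) := by
  simp only [NbI, Finset.mem_filter, Finset.mem_univ, true_and]

theorem card_box (i a a' b b' k : ℕ) (h1 : a' + 1 ≤ a + k) (h2 : b' + 1 ≤ b + k) :
    (({i} : Finset ℕ) ×ˢ Finset.Icc a a' ×ˢ Finset.Icc b b').card ≤ k * k := by
  rw [Finset.card_product, Finset.card_product, Finset.card_singleton, one_mul, Nat.card_Icc,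
    Nat.card_Icc]
  exact Nat.mul_le_mul (by omega) (by omega)

end Rou

open Rou in
/-- Routes and counts of the schedule. -/
theorem routes : RoutesStmt := by
  classical
  intro L top fin h1 h2 hfin
  change un top ≤ L at h1
  have h2' : L < un top * 2 := by unfold un; omega
  have hL : 0 < L := (un_pos top).trans_le h1
  have htop : top < L := by
    have := Nat.lt_two_pow_self (n := top)
    rw [un_eq] at h1; omega
  have hle : ∀ i ≤ top, un i ≤ L := fun i hi => (un_mono hi).trans h1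
  have hamt : amax L top = 2 := by
    rw [amax_eq, Nat.div_eq_of_lt_le (k := 1) (by omega) (by omega)]
  let tF : ℕ → Fin L := fun x => ⟨x % L, Nat.mod_lt _ hL⟩
  have tF_val : ∀ x < L, (tF x).val = x := fun x hx => Nat.mod_eq_of_lt hx
  have hroot : ps L (top + 1) 0 < L := by
    have : 1 ≤ 2 ^ top := Nat.one_le_two_pow
    rw [un_eq] at h1
    rw [ps, mu, Nat.zero_min, pow_succ]; omega
  let loc : Pty L → Fin L × Fin L := fun p => match p with
    | none => (tF (ps L (top + 1) 0), tF (ps L (top + 1) 0))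
    | some (i, a, b) => (tF (ps L i a), tF (ps L i b))
  let rg : Blk → Finset (Fin L × Fin L) := fun b =>
    mesh L (un b.2.1) b.2.2.1 b.2.2.2 fun x => lv x = b.2.1 ∨ lv x = b.2.1 + 1
  let rp : Pty L → Finset (Fin L × Fin L) := fun p => match p with
    | none => ∅
    | some (_, a, b) => mesh L (un 0) a b fun _ => True
  have hw : ∀ i ≤ top, ∀ a a', a' ≤ amax L i → a' ≤ a + 1 → a ≤ a' + 1 →
      Win (un i) a (tF (ps L i a')) := by
    intro i hi a a' e1 e2 e3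
    have := mu_bd e1
    rw [tF_val _ (ps_lt (hle i hi) _), Win, ps_div]
    omega
  have hw' : ∀ i, i + 1 ≤ top → ∀ a a', a' ≤ amax L (i + 1) → a' ≤ a / 2 + 1 → a / 2 ≤ a' + 1 →
      Win (un i) a (tF (ps L (i + 1) a')) := by
    intro i hi a a' e1 e2 e3
    have := mu_bd e1
    rw [tF_val _ (ps_lt (hle _ hi) _), Win, ps_div_succ]
    omega
  have hlv : ∀ i ≤ top, ∀ a, lv (tF (ps L i a)) = i := fun i hi a => by
    rw [tF_val _ (ps_lt (hle i hi) _), lv_ps]
  have hz : ∀ z, ∃ a b : Fin (L + 2), a.1 ≤ amax L 0 ∧ b.1 ≤ amax L 0 ∧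
      fin z = some (⟨0, by omega⟩, a, b) ∧ 8192 * a.1 ≤ z.1.1 + 5120 ∧ z.1.1 ≤ 8192 * a.1 + 5120 ∧
      8192 * b.1 ≤ z.2.1 + 5120 ∧ z.2.1 ≤ 8192 * b.1 + 5120 := by
    intro z
    obtain ⟨a, b, ha, hb, e, hm⟩ := hfin z
    refine ⟨_, _, ha, hb, e.trans (pty_zero ha hb), ?_⟩
    simp only [Rect.mem, sqr, cls, cl, gpos, del] at hm
    norm_num at hm
    simp only
    omega
  have hw0 : ∀ a x : ℕ, 8192 * a ≤ x + 5120 → x ≤ 8192 * a + 5120 → Win (un 0) a x := by
    intro a x e1 e2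
    rw [Win, un_eq, pow_zero, mul_one]
    omega
  refine ⟨⟨⟨loc, rg, rp, ?_, ?_, ?_, ?_, ?_, ?_, ?_, ?_, ?_⟩⟩, ?_, ?_⟩
  · intro b hb
    obtain ⟨e1, e2, e3, -⟩ := mem_BS.1 hb
    exact mesh_conn _ _ (hw _ e1 _ _ e2 (by omega) (by omega)) (hw _ e1 _ _ e3 (by omega) (by omega))
      (Or.inl (hlv _ e1 _)) (Or.inl (hlv _ e1 _))
  · intro z
    obtain ⟨a, b, -, -, e, e1, e2, e3, e4⟩ := hz z
    rw [e]
    exact mesh_conn z.1 z.2 (hw0 _ _ e1 e2) (hw0 _ _ e3 e4) trivial trivial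
  · rintro b hb (_ | ⟨i, a', b'⟩) hp
    · obtain ⟨e1, e2, e3, -⟩ := mem_BS.1 hb
      have e := none_mem_NbI.1 hp
      rw [e, hamt] at e2 e3
      have hq : ∀ a ≤ 2, Win (un b.2.1) a (tF (ps L (top + 1) 0)) := by
        intro a ha
        rw [tF_val _ hroot, e, Win, ps_div_succ, mu, Nat.zero_min]
        omega
      refine mem_mesh.2 ⟨hq _ e2, hq _ e3, Or.inl (Or.inr ?_)⟩
      change lv (tF _) = _
      rw [tF_val _ hroot, lv_ps, e]
    · obtain ⟨e1, -⟩ := mem_BS.1 hb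
      obtain ⟨f1, f2, ⟨f3, f4, f5, f6, f7⟩ | ⟨f3, f, f4, f5, f6, f7⟩⟩ := some_mem_NbI.1 hp
      · change (tF (ps L i a'), tF (ps L i b')) ∈ _
        rw [f3] at f1 f2 ⊢
        exact mem_mesh.2 ⟨hw _ e1 _ _ f1 f4 f5, hw _ e1 _ _ f2 f6 f7, Or.inl (Or.inl (hlv _ e1 _))⟩
      · change (tF (ps L i a'), tF (ps L i b')) ∈ _
        rw [f3] at f1 f2 f ⊢
        exact mem_mesh.2 ⟨hw' _ f _ _ f1 f4 f5, hw' _ f _ _ f2 f6 f7, Or.inl (Or.inr (hlv _ f _))⟩
  · intro z
    obtain ⟨a, b, ha, hb, e, -⟩ := hz z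
    rw [e]
    exact mem_mesh.2 ⟨hw 0 (Nat.zero_le _) _ _ ha (by omega) (by omega),
      hw 0 (Nat.zero_le _) _ _ hb (by omega) (by omega), Or.inl trivial⟩
  · intro z
    obtain ⟨a, b, -, -, e, e1, e2, e3, e4⟩ := hz z
    rw [e]
    exact mem_mesh.2 ⟨hw0 _ _ e1 e2, hw0 _ _ e3 e4, Or.inl trivial⟩
  · intro z
    let T : ℕ → Finset (ℕ × ℕ × ℕ) := fun i => {i} ×ˢ Finset.Icc (z.1 / un i - 8) (z.1 / un i + 8) ×ˢ
      Finset.Icc (z.2 / un i - 8) (z.2 / un i + 8)
    have hT : ∀ i, (T i).card ≤ 17 * 17 := fun i => card_box _ _ _ _ _ _ (by omega) (by omega)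
    refine le_trans (Finset.card_le_card (t := Finset.univ ×ˢ
      (T (lv z.1) ∪ T (lv z.1 - 1) ∪ T (lv z.2) ∪ T (lv z.2 - 1))) fun b hb => ?_) ?_
    · obtain ⟨⟨e1, e2⟩, ⟨e3, e4⟩, e5⟩ := mem_mesh.1 (Finset.mem_filter.1 hb).2
      have hm : b.2 ∈ T b.2.1 := by
        simp only [T, Finset.mem_product, Finset.mem_singleton, Finset.mem_Icc, true_and]
        omega
      simp only [Finset.mem_product, Finset.mem_univ, true_and, Finset.mem_union]
      rcases e5 with (e5 | e5) | (e5 | e5) <;> simp [e5, hm]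
    · rw [Finset.card_product, Finset.card_univ, Fintype.card_bool]
      have a1 := Finset.card_union_le (T (lv z.1) ∪ T (lv z.1 - 1) ∪ T (lv z.2)) (T (lv z.2 - 1))
      have a2 := Finset.card_union_le (T (lv z.1) ∪ T (lv z.1 - 1)) (T (lv z.2))
      have a3 := Finset.card_union_le (T (lv z.1)) (T (lv z.1 - 1))
      have := hT (lv z.1); have := hT (lv z.1 - 1); have := hT (lv z.2); have := hT (lv z.2 - 1)
      omega
  · intro z
    refine le_trans (Finset.card_le_card_of_injOn (t := ({0} ×ˢ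
      Finset.Icc (z.1 / un 0 - 8) (z.1 / un 0 + 8) ×ˢ Finset.Icc (z.2 / un 0 - 8) (z.2 / un 0 + 8)
      : Finset (ℕ × ℕ × ℕ)).image some)
      (Option.map fun x => (x.1.1, x.2.1.1, x.2.2.1)) (fun p hp => ?_) ?_) ?_
    · obtain ⟨e1, e2⟩ := Finset.mem_filter.1 (Finset.mem_coe.1 hp)
      obtain ⟨z', -, rfl⟩ := Finset.mem_image.1 e1
      obtain ⟨a, b, -, -, e, -⟩ := hz z'
      rw [e] at e2 ⊢
      obtain ⟨⟨e3, e4⟩, ⟨e5, e6⟩, -⟩ := mem_mesh.1 e2
      refine Finset.mem_coe.2 (Finset.mem_image_of_mem _ ?_)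
      simp only [Finset.mem_product, Finset.mem_singleton, Finset.mem_Icc, true_and]
      omega
    · refine (Option.map_injective fun x y h => ?_).injOn
      simp only [Prod.mk.injEq] at h
      exact Prod.ext (Fin.ext h.1) (Prod.ext (Fin.ext h.2.1) (Fin.ext h.2.2))
    · exact Finset.card_image_le.trans ((card_box _ _ _ _ _ 17 (by omega) (by omega)).trans
        (by norm_num))
  · intro b hb
    obtain ⟨e1, e2, e3, -⟩ := mem_BS.1 hb
    refine ⟨⟨some (⟨b.2.1, by omega⟩, ⟨b.2.2.1, e2.trans_lt (amax_lt _ _)⟩,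
      ⟨b.2.2.2, e3.trans_lt (amax_lt _ _)⟩), some_mem_NbI.2 ⟨e2, e3, Or.inl (by simp)⟩⟩, ?_⟩
    let T₁ : Finset (ℕ × ℕ × ℕ) := {b.2.1} ×ˢ Finset.Icc (b.2.2.1 - 1) (b.2.2.1 + 1) ×ˢ
      Finset.Icc (b.2.2.2 - 1) (b.2.2.2 + 1)
    let T₂ : Finset (ℕ × ℕ × ℕ) := {b.2.1 + 1} ×ˢ Finset.Icc (b.2.2.1 / 2 - 1) (b.2.2.1 / 2 + 1) ×ˢ
      Finset.Icc (b.2.2.2 / 2 - 1) (b.2.2.2 / 2 + 1)
    refine le_trans (Finset.card_le_card_of_injOn (t := insert none ((T₁ ∪ T₂).image some))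
      (Option.map fun x => (x.1.1, x.2.1.1, x.2.2.1)) ?_ ?_) ?_
    · rintro (_ | ⟨i, a', b'⟩) hp
      · exact Finset.mem_coe.2 (Finset.mem_insert_self _ _)
      · refine Finset.mem_coe.2 (Finset.mem_insert_of_mem (Finset.mem_image_of_mem _ ?_))
        have := (some_mem_NbI.1 (Finset.mem_coe.1 hp)).2.2
        simp only [T₁, T₂, Finset.mem_union, Finset.mem_product, Finset.mem_singleton,
          Finset.mem_Icc]
        omega
    · refine (Option.map_injective fun x y h => ?_).injOn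
      simp only [Prod.mk.injEq] at h
      exact Prod.ext (Fin.ext h.1) (Prod.ext (Fin.ext h.2.1) (Fin.ext h.2.2))
    · have a1 : T₁.card ≤ 3 * 3 := card_box _ _ _ _ _ _ (by omega) (by omega)
      have a2 : T₂.card ≤ 3 * 3 := card_box _ _ _ _ _ _ (by omega) (by omega)
      have a3 := Finset.card_union_le T₁ T₂
      have a4 := Finset.card_image_le (s := T₁ ∪ T₂) (f := some)
      have a5 := Finset.card_insert_le none ((T₁ ∪ T₂).image some)
      omega
  · rintro (_ | ⟨i, a', b'⟩)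
    · refine le_trans (Finset.card_le_card (t := Finset.univ ×ˢ ({top} ×ˢ Finset.Icc 0 2 ×ˢ
        Finset.Icc 0 2 : Finset (ℕ × ℕ × ℕ))) fun b hb => ?_) ?_
      · obtain ⟨e1, e2⟩ := Finset.mem_filter.1 hb
        obtain ⟨-, e3, e4, -⟩ := mem_BS.1 e1
        have e := none_mem_NbI.1 e2
        rw [e, hamt] at e3 e4
        simp only [Finset.mem_product, Finset.mem_univ, Finset.mem_singleton, Finset.mem_Icc,
          true_and]
        omega
      · simp
    · let T₁ : Finset (ℕ × ℕ × ℕ) := {i.1} ×ˢ Finset.Icc (a'.1 - 1) (a'.1 + 1) ×ˢ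
        Finset.Icc (b'.1 - 1) (b'.1 + 1)
      let T₂ : Finset (ℕ × ℕ × ℕ) := {i.1 - 1} ×ˢ Finset.Icc (2 * a'.1 - 2) (2 * a'.1 + 3) ×ˢ
        Finset.Icc (2 * b'.1 - 2) (2 * b'.1 + 3)
      refine le_trans (Finset.card_le_card (t := Finset.univ ×ˢ (T₁ ∪ T₂)) fun b hb => ?_) ?_
      · have := (some_mem_NbI.1 (Finset.mem_filter.1 hb).2).2.2
        simp only [T₁, T₂, Finset.mem_union, Finset.mem_product, Finset.mem_singleton,
          Finset.mem_Icc, Finset.mem_univ, true_and]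
        omega
      · have a1 : T₁.card ≤ 3 * 3 := card_box _ _ _ _ _ _ (by omega) (by omega)
        have a2 : T₂.card ≤ 6 * 6 := card_box _ _ _ _ _ _ (by omega) (by omega)
        have a3 := Finset.card_union_le T₁ T₂
        rw [Finset.card_product, Finset.card_univ, Fintype.card_bool]
        omega
  · refine le_trans (Finset.card_filter_le _ _) ?_
    simp only [Finset.card_product, Finset.card_univ, Fintype.card_bool, Finset.card_range]
    have : 8192 ≤ L := by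
      have : 1 ≤ 2 ^ top := Nat.one_le_two_pow
      rw [un_eq] at h1; omega
    calc 2 * ((top + 1) * ((L + 2) * (L + 2))) ≤ 2 * (L * ((2 * L) * (2 * L))) := by
          gcongr <;> omega
      _ ≤ 16 * L ^ 3 := by nlinarith [Nat.zero_le (L ^ 3)]
  · intro p
    rcases (Finset.univ.filter fun z => fin z = p).eq_empty_or_nonempty with h | ⟨z₀, hz₀⟩
    · rw [h]; simp
    obtain ⟨a, b, -, -, e, -⟩ := hz z₀
    obtain ⟨A, hA⟩ : ∃ A, A = 8192 * a.1 := ⟨_, rfl⟩
    obtain ⟨B, hB⟩ : ∃ B, B = 8192 * b.1 := ⟨_, rfl⟩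
    obtain ⟨r, hr⟩ : ∃ r, r = 5120 := ⟨_, rfl⟩
    have hc := card_box 0 (A - r) (A + r) (B - r) (B + r) (2 * r + 1) (by omega) (by omega)
    have hK : (2 * r + 1) * (2 * r + 1) ≤ K0 := by rw [hr, K0]; norm_num
    refine le_trans (Finset.card_le_card_of_injOn
      (fun z => (0, z.1.1, z.2.1)) (fun z hz' => ?_) fun z _ z' _ h => ?_) (hc.trans hK)
    · obtain ⟨a', b', -, -, e', e1, e2, e3, e4⟩ := hz z
      have f1 := (Finset.mem_filter.1 (Finset.mem_coe.1 hz')).2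
      have f2 := (Finset.mem_filter.1 hz₀).2
      rw [← f2, e, e'] at f1
      simp only [Option.some.injEq, Prod.mk.injEq, true_and] at f1
      rw [f1.1] at e1 e2
      rw [f1.2] at e3 e4
      simp only [Finset.coe_product, Finset.coe_singleton, Finset.coe_Icc, Set.mem_prod,
        Set.mem_singleton_iff, Set.mem_Icc, true_and]
      omega
    · simp only [Prod.mk.injEq, true_and] at h
      exact Prod.ext (Fin.ext h.1) (Fin.ext h.2)

end Crest.Agent.N336.P.Geo
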