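import Crest.Agent.N336.P.Geo.Api

/-!
# Row 336, painter schedule: the small regime `small : RectStmt → SmallStmt` (helper62)
-/

set_option autoImplicit false
set_option linter.unusedSectionVars false

namespace Crest.Agent.N336.P.Geo

open Crest.MathPhysics.LatticeSpin

section aux

variable {Λ Cl : Type} [Fintype Λ] [DecidableEq Λ] [DecidableEq Cl] {pos : Λ → ℤ × ℤ} {δ : ℕ}
  {κ : ℤ × ℤ → Cl} {Q : Rect} {c : Cl} {I : Finset Cl}

/-- colours around a vertex of the closed rectangle with a site nearby -/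
theorem occ_mem (hδ : 0 < δ)
    (hI : ∀ X, Q.ext.mem X → κ X ≠ c ∧ ((∃ z, sd (cl δ (pos z)) X ≤ 1) → κ X ∈ I))
    {V : ℤ × ℤ} (hV : Cls Q V) {z : Λ} {r : ℤ} (hr : r ≤ δ) (hz : nr (vt δ V) r (pos z)) {p : Cl}
    (hp : Occ κ V p) : p ∈ I ∧ p ≠ c := by
  obtain ⟨X, hX, rfl⟩ := hp
  exact ⟨(hI X (hV.mem hX)).2 ⟨z, (quad_of_nr hδ hr hz).sd_le hX⟩, (hI X (hV.mem hX)).1⟩

theorem sd_self_le (X : ℤ × ℤ) : sd X X ≤ 1 := by rw [sd_le_iff]; omega

theorem ext_cl (hδ : 0 < δ) {z : ℤ × ℤ} (h1 : δ * Q.x0 - δ ≤ z.1) (h2 : z.1 < δ * Q.x1 + δ)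
    (h3 : δ * Q.y0 - δ ≤ z.2) (h4 : z.2 < δ * Q.y1 + δ) : Q.ext.mem (cl δ z) := by
  rw [mem_cl hδ]
  simp only [Rect.mem, Rect.sc, Rect.ext, mul_add, mul_sub, mul_one]
  omega

theorem exists_pair (κ : ℤ × ℤ → Cl) (hδ : 0 < δ) (c : Cl) :
    ∃ pr : ℤ × ℤ → Cl × Cl, ∀ V, Two κ V → Occ κ V (pr (vt δ V)).1 ∧ Occ κ V (pr (vt δ V)).2 ∧
      ∀ X, Quad V X → Mem (κ X) (pr (vt δ V)) := by
  have : ∀ v : ℤ × ℤ, ∃ P : Cl × Cl, ∀ V, v = vt δ V → Two κ V → Occ κ V P.1 ∧ Occ κ V P.2 ∧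
      ∀ X, Quad V X → Mem (κ X) P := by
    intro v
    by_cases h : ∃ V, v = vt δ V ∧ Two κ V
    · obtain ⟨V, e, h⟩ := h
      obtain ⟨P, hP⟩ := two_occ h
      refine ⟨P, fun V' e' _ => ?_⟩
      obtain rfl := vt_inj hδ (e.symm.trans e')
      exact hP
    · exact ⟨(c, c), fun V e h' => absurd ⟨V, e, h'⟩ h⟩
  choose pr hpr using this
  exact ⟨pr, fun V h => hpr _ V rfl h⟩

/-- the rows of two cells around `V` differ only across the line through `V` -/
theorem cross_row (hδ : 0 < δ) {V z z' : ℤ × ℤ} (q : Quad V (cl δ z)) (q' : Quad V (cl δ z'))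
    (h : (cl δ z).2 ≠ (cl δ z').2) :
    (z.2 < δ * V.2 ∧ δ * V.2 ≤ z'.2) ∨ (z'.2 < δ * V.2 ∧ δ * V.2 ≤ z.2) := by
  have a := le_dv hδ V.2 z.2
  have b := le_dv hδ V.2 z'.2
  have := q.2
  have := q'.2
  simp only [cl] at *
  omega

theorem cross_col (hδ : 0 < δ) {V z z' : ℤ × ℤ} (q : Quad V (cl δ z)) (q' : Quad V (cl δ z'))
    (h : (cl δ z).1 ≠ (cl δ z').1) :
    (z.1 < δ * V.1 ∧ δ * V.1 ≤ z'.1) ∨ (z'.1 < δ * V.1 ∧ δ * V.1 ≤ z.1) := by
  have a := le_dv hδ V.1 z.1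
  have b := le_dv hδ V.1 z'.1
  have := q.1
  have := q'.1
  simp only [cl] at *
  omega

end aux

theorem small (rect : RectStmt) : SmallStmt := by
  intro Λ Cl _ _ _ pos Ex Pt η hη hPt New κ Q c I s hrep hg hx1 hx2 hy1 hy2 hNew hc hI
  obtain ⟨hcol, HA, hH, r⟩ := rep_iff.1 hrep
  obtain ⟨δ, hδe⟩ : ∃ δ : ℕ, δ = 256 * η := ⟨_, rfl⟩
  rw [← hδe] at hcol r hI ⊢
  have hδ : 0 < δ := by omega
  have hδz : (δ : ℤ) = 256 * η := by rw [hδe]; push_cast; ring
  have hI' : ∀ X, Q.ext.mem X → κ X ≠ c ∧ ((∃ z, sd (cl δ (pos z)) X ≤ 1) → κ X ∈ I) := hI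
  have hm : ∀ a : ℤ, (η : ℤ) * (256 * a) = δ * a := fun a => by rw [hδz]; ring
  have hpr : ∀ v : HD Cl, ∃ (y : Cl) (P : Cl × Cl), v ∈ HA → ∀ V, v.v = vt δ V →
      Occ κ V y ∧ Occ κ V P.1 ∧ Occ κ V P.2 ∧ Occ κ V v.tg ∧
        ∀ X, Quad V X → Mem (κ X) P ∨ κ X = y := by
    intro v
    by_cases hv : v ∈ HA
    · obtain ⟨-, V, e, ⟨-, y, P, a1, a2, a3, a4⟩, a5, -⟩ := r.h1 v hv
      refine ⟨y, P, fun _ V' e' => ?_⟩
      obtain rfl := vt_inj hδ (e.symm.trans e')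
      exact ⟨a1, a2, a3, a5, a4⟩
    · exact ⟨c, (c, c), fun h => absurd h hv⟩
  choose yy pr hpr using hpr
  obtain ⟨pr', hpr'⟩ := exists_pair κ hδ c
  have hsub : olds δ Q HA ⊆ HA := fun _ h => (mem_olds.1 h).1
  refine ⟨1, ⟨fun z => paint κ Q c (cl δ (pos z)),
    (HA \ olds δ Q HA ∪ news pos δ η κ Q c).image (HD.hole pos)⟩, by unfold K0; norm_num,
    Seg.single (Or.inr (Or.inl ?_)), rep_iff.2 ⟨fun _ => rfl, _, rfl, r.paint hδ hg⟩⟩
  have X01 := mul_step δ (show Q.x0 < Q.x1 by omega)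
  have Y01 := mul_step δ (show Q.y0 < Q.y1 by omega)
  refine rect Λ Cl pos Pt η ⟨256 * Q.x0, 256 * Q.x1, 256 * Q.y0, 256 * Q.y1⟩ c I s _
    (olds δ Q HA) (news pos δ η κ Q c) yy pr (fun w => pr' w.v) hη hPt (by simp only; omega)
    (by simp only; omega) ?_ ?_ ?_ ?_ ?_ ?_ hc ?_ ?_ ?_ ?_ ?_ ?_ ?_
  · -- number of old holes
    refine le_trans ?_ ((card_clsV hx2 hy2).trans (by norm_num))
    refine le_trans ?_ (Finset.card_image_le (f := vt δ))
    refine Finset.card_le_card_of_injOn HD.v (fun v hv => ?_) fun v hv v' hv' e =>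
      r.h2 v (hsub hv) v' (hsub hv') e
    obtain ⟨-, V, hi, e⟩ := mem_olds.1 hv
    exact Finset.mem_coe.2 (Finset.mem_image.2 ⟨V, mem_clsV.2 hi.cls, e.symm⟩)
  · exact Finset.card_image_le.trans ((Finset.card_le_card fun V hV =>
      mem_clsV.2 (mem_newV.1 hV).1).trans ((card_clsV hx2 hy2).trans (by norm_num)))
  · intro z hz
    simp only [hm] at hz
    exact if_pos ((mem_cl hδ Q _).2 hz)
  · intro z hz
    simp only [hm] at hz
    exact (if_neg fun h => hz ((mem_cl hδ Q _).1 h)).trans (hcol z).symm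
  · rw [hH]; exact Finset.image_subset_image hsub
  · rw [hH, Finset.image_union, Finset.image_sdiff_of_injOn (r.inj (by omega)) hsub]
  · intro z hz
    simp only [hm, Rect.mem] at hz
    rw [hcol]
    exact (hI' _ (ext_cl hδ (by omega) (by omega) (by omega) (by omega))).2 ⟨z, sd_self_le _⟩
  · -- (R1)
    intro x y
    set V := cl δ (x + 6 * η - 1, y + 6 * η - 1) with hV
    have hs := cl_spec hδ (x + 6 * η - 1, y + 6 * η - 1)
    rw [← hV] at hs
    simp only at hs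
    have hq : ∀ z ∈ sq pos x y (6 * η), Quad V (cl δ (pos z)) := fun z hz => by
      rw [mem_sq] at hz
      exact quad_of_nr hδ le_rfl (by simp only [nr, vt]; omega)
    by_cases h1 : δ * V.1 ≤ x
    · refine ⟨(κ (V.1, V.2), κ (V.1, V.2 - 1)), fun z hz _ _ => ?_⟩
      have q := hq z hz
      rw [mem_sq] at hz
      have := (le_dv hδ V.1 (pos z).1).2 (by omega)
      have e : cl δ (pos z) = (V.1, (cl δ (pos z)).2) :=
        Prod.ext (by have := q.1; simp only [cl] at *; omega) rfl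
      rw [hcol, e]
      rcases q.2 with e | e <;> rw [e]
      · exact Or.inl rfl
      · exact Or.inr rfl
    by_cases h2 : δ * V.2 ≤ y
    · refine ⟨(κ (V.1, V.2), κ (V.1 - 1, V.2)), fun z hz _ _ => ?_⟩
      have q := hq z hz
      rw [mem_sq] at hz
      have := (le_dv hδ V.2 (pos z).2).2 (by omega)
      have e : cl δ (pos z) = ((cl δ (pos z)).1, V.2) :=
        Prod.ext rfl (by have := q.2; simp only [cl] at *; omega)
      rw [hcol, e]
      rcases q.1 with e | e <;> rw [e]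
      · exact Or.inl rfl
      · exact Or.inr rfl
    by_cases h3 : Two κ V
    · obtain ⟨P, hP⟩ := h3
      exact ⟨P, fun z hz _ _ => hcol z ▸ hP _ (hq z hz)⟩
    refine ⟨(c, c), fun z hz hn ho => False.elim ?_⟩
    rw [mem_sq] at hz
    have hz6 : nr (vt δ V) (6 * η) (pos z) := by simp only [nr, vt]; omega
    obtain ⟨h, hh, e⟩ := (r.h3 V ⟨z, mem_bx'.2 (hz6.mono (by omega))⟩).resolve_left h3
    by_cases hol : h ∈ olds δ Q HA
    · refine ho h hol ?_
      simp only [HD.hole, mem_bx', e]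
      exact hz6.mono (by have := r.rad hh; omega)
    · obtain ⟨V', e', hc'⟩ := r.out hg hh hol
      obtain rfl := vt_inj hδ (e.symm.trans e')
      have t1 := mul_tri δ V.1 Q.x0
      have t2 := mul_tri δ V.1 Q.x1
      have t3 := mul_tri δ V.2 Q.y0
      have t4 := mul_tri δ V.2 Q.y1
      simp only [hm, Rect.mem] at hn
      simp only [nr, vt] at hz6
      unfold Cls at hc'
      omega
  · -- (R2)
    intro v hv
    obtain ⟨hv', V, hi, e⟩ := mem_olds.1 hv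
    obtain ⟨a1, a2, a3, a4, a5⟩ := hpr v hv' V e
    obtain ⟨⟨z, hz⟩, -⟩ := r.h1 v hv'
    have hr := r.rad hv'
    simp only [HD.hole, mem_bx', e] at hz
    have o : ∀ p, Occ κ V p → p ∈ I ∧ p ≠ c := fun p hp =>
      occ_mem hδ hI' hi.cls (by omega) hz hp
    refine ⟨(o _ a2).1, (o _ a3).1, (o _ a4).1, ?_, (o _ a1).2.symm, fun z hz => ?_⟩
    · rintro (h | h)
      · exact (o _ a2).2 h.symm
      · exact (o _ a3).2 h.symm
    · rw [mem_bx', e] at hz
      have q := quad_of_nr hδ (by omega) hz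
      refine ⟨?_, hcol z ▸ a5 _ q⟩
      simp only [hm]
      exact (mem_cl hδ Q _).1 (hi.mem q)
  · intro v hv v' hv' hne
    obtain ⟨hv1, V, -, e⟩ := mem_olds.1 hv
    obtain ⟨hv2, V', -, e'⟩ := mem_olds.1 hv'
    rw [Finset.disjoint_left]
    intro z h1 h2
    rw [mem_bx'] at h1 h2
    rw [e] at h1
    rw [e'] at h2
    have := vert_eq (by have := r.rad hv1; have := r.rad hv2; omega) h1 h2
    exact hne (r.h2 v hv1 v' hv2 (by rw [e, e', this]))
  · -- (R3)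
    intro w hw
    obtain ⟨V, hV, rfl⟩ := Finset.mem_image.1 hw
    obtain ⟨h1, h2, ⟨z, hz⟩⟩ := mem_newV.1 hV
    have hn := not_ins_of_not_two h2
    obtain ⟨a1, a2, a3⟩ := hpr' V (hg.two h1 hn)
    have hz' := mem_bx'.1 hz
    refine ⟨rfl, ⟨z, hz⟩, (occ_mem hδ hI' h1 (by omega) hz' a1).1,
      (occ_mem hδ hI' h1 (by omega) hz' a2).1, hc, fun z hz => ?_, fun v hv => ?_,
      fun w' hw' hne => ?_⟩
    · exact hcol z ▸ a3 _ (quad_of_nr hδ (by omega) (mem_bx'.1 hz))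
    · obtain ⟨hv1, V', hi, e⟩ := mem_olds.1 hv
      rw [Finset.disjoint_left]
      intro z h1 h2
      rw [mem_bx'] at h1 h2
      rw [e] at h2
      obtain rfl := vert_eq (by have := r.rad hv1; omega) h1 h2
      exact hn hi
    · obtain ⟨V', -, rfl⟩ := Finset.mem_image.1 hw'
      rw [Finset.disjoint_left]
      intro z h1 h2
      simp only [HD.hole, mem_bx'] at h1 h2
      obtain rfl := vert_eq (by omega) h1 h2
      exact hne rfl
  · intro z z' z'' n n' n'' hz d1 d2 d3 hne _ _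
    simp only [hm, Rect.mem] at n n' n'' hz
    rw [sd_lt_iff] at d1 d2 d3
    set V := cl δ ((pos z).1 + 128 * η, (pos z).2 + 128 * η) with hV
    have hs := cl_spec hδ ((pos z).1 + 128 * η, (pos z).2 + 128 * η)
    rw [← hV] at hs
    simp only at hs
    have t1 := mul_tri δ V.1 Q.x0
    have t2 := mul_tri δ V.1 Q.x1
    have t3 := mul_tri δ V.2 Q.y0
    have t4 := mul_tri δ V.2 Q.y1
    have hC : Cls Q V := by unfold Cls; omega
    have hN : ¬ Ins Q V := by unfold Ins; omega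
    have q' : Quad V (cl δ (pos z')) := quad_of_nr hδ le_rfl (by simp only [nr, vt]; omega)
    have q'' : Quad V (cl δ (pos z'')) := quad_of_nr hδ le_rfl (by simp only [nr, vt]; omega)
    rw [hcol, hcol] at hne
    obtain ⟨h2, hst⟩ := hg.stem (fun X hX => (hI' X hX).1) (by omega) (by omega) hC hN q' q'' hne
    have hz6 : nr (vt δ V) (6 * η) (pos z) := by
      rcases hst with ⟨a, b, c, d⟩ | ⟨a, b, c, d⟩
      · have := cross_row hδ q' q'' d
        simp only [nr, vt]; omega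
      · have := cross_col hδ q' q'' d
        simp only [nr, vt]; omega
    exact ⟨_, Finset.mem_image_of_mem _
      (mem_newV.2 ⟨hC, h2, z, mem_bx'.2 (hz6.mono (by omega))⟩), mem_bx'.2 hz6⟩
  · -- (R4)
    intro v hv
    rw [hH, ← Finset.image_sdiff_of_injOn (r.inj (by omega)) hsub] at hv
    obtain ⟨h, hh, rfl⟩ := Finset.mem_image.1 hv
    obtain ⟨hh1, hh2⟩ := Finset.mem_sdiff.1 hh
    obtain ⟨V, e, hc'⟩ := r.out hg hh1 hh2
    have hr := r.rad hh1
    refine ⟨fun z hz hn => ?_, fun w hw => ?_⟩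
    · simp only [HD.hole, mem_bx', e, nr, vt] at hz
      simp only [hm, Rect.mem] at hn
      have t1 := mul_tri δ V.1 Q.x0
      have t2 := mul_tri δ V.1 Q.x1
      have t3 := mul_tri δ V.2 Q.y0
      have t4 := mul_tri δ V.2 Q.y1
      unfold Cls at hc'
      omega
    · obtain ⟨V', hV', rfl⟩ := Finset.mem_image.1 hw
      rw [Finset.disjoint_left]
      intro z h1 h2
      simp only [HD.hole, mem_bx', e] at h1 h2
      obtain rfl := vert_eq (by omega) h1 h2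
      exact hc' (mem_newV.1 hV').1

end Crest.Agent.N336.P.Geo
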