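import Crest.Agent.N336.P.Geo.Rect

/-!
# Row 336, painter schedule: cells, vertices, boxes, the state after painting (helper62)
-/

set_option autoImplicit false
set_option linter.unusedSectionVars false

namespace Crest.Agent.N336.P.Geo

open Crest.MathPhysics.LatticeSpin

/-! ## boxes and cells -/

/-- the point `z` lies in the half-open box of centre `v` and radius `r` -/
def nr (v : ℤ × ℤ) (r : ℤ) (z : ℤ × ℤ) : Prop :=
  v.1 - r ≤ z.1 ∧ z.1 < v.1 + r ∧ v.2 - r ≤ z.2 ∧ z.2 < v.2 + r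

/-- position of the vertex `V` -/
def vt (δ : ℕ) (V : ℤ × ℤ) : ℤ × ℤ := (δ * V.1, δ * V.2)

theorem nr.mono {v z : ℤ × ℤ} {r r' : ℤ} (h : nr v r z) (hr : r ≤ r') : nr v r' z := by
  unfold nr at *; omega

theorem mem_bx' {Λ : Type} [Fintype Λ] {pos : Λ → ℤ × ℤ} {v : ℤ × ℤ} {r : ℤ} {z : Λ} :
    z ∈ bx pos v r ↔ nr v r (pos z) := by
  rw [bx, mem_sq]; unfold nr; omega

theorem mul_step (δ : ℕ) {a b : ℤ} (h : a < b) : δ * a + δ ≤ δ * b := by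
  have := mul_le_mul_of_nonneg_left (show a + 1 ≤ b from h) (Int.natCast_nonneg δ)
  linarith

theorem mul_le (δ : ℕ) {a b : ℤ} (h : a ≤ b) : δ * a ≤ δ * b :=
  mul_le_mul_of_nonneg_left h (Int.natCast_nonneg δ)

/-- trichotomy for multiples of `δ` -/
theorem mul_tri (δ : ℕ) (a b : ℤ) : (a < b ∧ δ * a + δ ≤ δ * b) ∨ (a = b ∧ δ * a = δ * b) ∨
    (b < a ∧ δ * b + δ ≤ δ * a) := by
  rcases lt_trichotomy a b with h | h | h
  · exact Or.inl ⟨h, mul_step δ h⟩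
  · exact Or.inr (Or.inl ⟨h, by rw [h]⟩)
  · exact Or.inr (Or.inr ⟨h, mul_step δ h⟩)

theorem le_dv {δ : ℕ} (hδ : 0 < δ) (a x : ℤ) : a ≤ x / δ ↔ δ * a ≤ x := by
  rw [Int.le_ediv_iff_mul_le (by exact_mod_cast hδ), mul_comm]

theorem dv_lt {δ : ℕ} (hδ : 0 < δ) (a x : ℤ) : x / δ < a ↔ x < δ * a := by
  rw [← not_le, le_dv hδ, not_le]

theorem dv_spec {δ : ℕ} (hδ : 0 < δ) (x : ℤ) : δ * (x / δ) ≤ x ∧ x < δ * (x / δ) + δ := by
  refine ⟨(le_dv hδ _ _).1 le_rfl, ?_⟩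
  have := (dv_lt hδ (x / δ + 1) x).1 (by omega)
  linarith

theorem cl_spec {δ : ℕ} (hδ : 0 < δ) (z : ℤ × ℤ) : δ * (cl δ z).1 ≤ z.1 ∧
    z.1 < δ * (cl δ z).1 + δ ∧ δ * (cl δ z).2 ≤ z.2 ∧ z.2 < δ * (cl δ z).2 + δ :=
  ⟨(dv_spec hδ _).1, (dv_spec hδ _).2, (dv_spec hδ _).1, (dv_spec hδ _).2⟩

theorem quad_of_nr {δ : ℕ} (hδ : 0 < δ) {V z : ℤ × ℤ} {r : ℤ} (hr : r ≤ δ)
    (h : nr (vt δ V) r z) : Quad V (cl δ z) := by
  have h1 := cl_spec hδ z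
  have h2 := mul_tri δ (cl δ z).1 V.1
  have h3 := mul_tri δ (cl δ z).2 V.2
  have h4 := mul_tri δ ((cl δ z).1 + 1) V.1
  have h5 := mul_tri δ ((cl δ z).2 + 1) V.2
  rw [mul_add, mul_one] at h4 h5
  simp only [nr, vt] at h
  unfold Quad
  omega

theorem vert_eq {δ : ℕ} {V V' z : ℤ × ℤ} {r r' : ℤ} (hr : r + r' ≤ δ) (h : nr (vt δ V) r z)
    (h' : nr (vt δ V') r' z) : V = V' := by
  have h2 := mul_tri δ V.1 V'.1
  have h3 := mul_tri δ V.2 V'.2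
  simp only [nr, vt] at h h'
  ext <;> omega

theorem vt_inj {δ : ℕ} (hδ : 0 < δ) {V V' : ℤ × ℤ} (h : vt δ V = vt δ V') : V = V' := by
  have h2 := mul_tri δ V.1 V'.1
  have h3 := mul_tri δ V.2 V'.2
  simp only [vt, Prod.mk.injEq] at h
  ext <;> omega

theorem sd_le_iff {z w : ℤ × ℤ} {r : ℤ} : sd z w ≤ r ↔
    z.1 - w.1 ≤ r ∧ w.1 - z.1 ≤ r ∧ z.2 - w.2 ≤ r ∧ w.2 - z.2 ≤ r := by
  simp only [sd, max_le_iff, abs_le]; omega

theorem Quad.sd_le {V X X' : ℤ × ℤ} (h : Quad V X) (h' : Quad V X') : sd X X' ≤ 1 := by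
  rw [sd_le_iff]; unfold Quad at *; omega

theorem quad_self (V : ℤ × ℤ) : Quad V V := ⟨Or.inl rfl, Or.inl rfl⟩

/-- the site rectangle of a cell rectangle -/
def Rect.sc (Q : Rect) (δ : ℕ) : Rect := ⟨δ * Q.x0, δ * Q.x1, δ * Q.y0, δ * Q.y1⟩

/-- the rectangle with one more layer -/
def Rect.ext (Q : Rect) : Rect := ⟨Q.x0 - 1, Q.x1 + 1, Q.y0 - 1, Q.y1 + 1⟩

theorem mem_cl {δ : ℕ} (hδ : 0 < δ) (Q : Rect) (z : ℤ × ℤ) :
    Q.mem (cl δ z) ↔ (Q.sc δ).mem z := by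
  simp only [Rect.mem, Rect.sc, cl, le_dv hδ, dv_lt hδ]

/-- vertex strictly inside -/
def Ins (Q : Rect) (V : ℤ × ℤ) : Prop := Q.x0 < V.1 ∧ V.1 < Q.x1 ∧ Q.y0 < V.2 ∧ V.2 < Q.y1

/-- vertex of the closed rectangle -/
def Cls (Q : Rect) (V : ℤ × ℤ) : Prop := Q.x0 ≤ V.1 ∧ V.1 ≤ Q.x1 ∧ Q.y0 ≤ V.2 ∧ V.2 ≤ Q.y1

instance (Q : Rect) (V : ℤ × ℤ) : Decidable (Ins Q V) := by unfold Ins; infer_instance

instance (Q : Rect) (V : ℤ × ℤ) : Decidable (Cls Q V) := by unfold Cls; infer_instance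

theorem Ins.cls {Q : Rect} {V : ℤ × ℤ} (h : Ins Q V) : Cls Q V := by
  unfold Ins at h; unfold Cls; omega

theorem Ins.mem {Q : Rect} {V X : ℤ × ℤ} (h : Ins Q V) (hX : Quad V X) : Q.mem X := by
  unfold Ins Quad at *; unfold Rect.mem; omega

theorem Cls.mem {Q : Rect} {V X : ℤ × ℤ} (h : Cls Q V) (hX : Quad V X) : Q.ext.mem X := by
  unfold Cls Quad at *; simp only [Rect.mem, Rect.ext]; omega

theorem not_mem_of_not_cls {Q : Rect} {V X : ℤ × ℤ} (h : ¬ Cls Q V) (hX : Quad V X) :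
    ¬ Q.mem X := by
  unfold Cls Quad at *; unfold Rect.mem; omega

/-! ## colours around a vertex -/

section col

variable {Cl : Type} {κ κ' : ℤ × ℤ → Cl} {V : ℤ × ℤ}

theorem two_occ (h : Two κ V) :
    ∃ P : Cl × Cl, Occ κ V P.1 ∧ Occ κ V P.2 ∧ ∀ X, Quad V X → Mem (κ X) P := by
  obtain ⟨P, hP⟩ := h
  by_cases h1 : Occ κ V P.1
  · by_cases h2 : Occ κ V P.2
    · exact ⟨P, h1, h2, hP⟩
    · exact ⟨(P.1, P.1), h1, h1, fun X hX =>
        Or.inl ((hP X hX).resolve_right fun e => h2 ⟨X, hX, e⟩)⟩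
  · have : ∀ X, Quad V X → κ X = P.2 := fun X hX => (hP X hX).resolve_left fun e => h1 ⟨X, hX, e⟩
    exact ⟨(P.2, P.2), ⟨V, quad_self V, this V (quad_self V)⟩,
      ⟨V, quad_self V, this V (quad_self V)⟩, fun X hX => Or.inl (this X hX)⟩

theorem three_of (h : ¬ Two κ V) {y : Cl} {P : Cl × Cl}
    (hc : ∀ X, Quad V X → Mem (κ X) P ∨ κ X = y) : Three κ V ∧ Occ κ V y := by
  have o1 : Occ κ V y := by
    by_contra o
    exact h ⟨P, fun X hX => (hc X hX).resolve_right fun e => o ⟨X, hX, e⟩⟩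
  have o2 : Occ κ V P.1 := by
    by_contra o
    refine h ⟨(P.2, y), fun X hX => ?_⟩
    rcases hc X hX with (e | e) | e
    · exact absurd ⟨X, hX, e⟩ o
    · exact Or.inl e
    · exact Or.inr e
  have o3 : Occ κ V P.2 := by
    by_contra o
    refine h ⟨(P.1, y), fun X hX => ?_⟩
    rcases hc X hX with (e | e) | e
    · exact Or.inl e
    · exact absurd ⟨X, hX, e⟩ o
    · exact Or.inr e
  exact ⟨⟨h, y, P, o1, o2, o3, hc⟩, o1⟩

theorem two_congr (e : ∀ X, Quad V X → κ' X = κ X) (h : Two κ V) : Two κ' V :=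
  let ⟨P, hP⟩ := h; ⟨P, fun X hX => e X hX ▸ hP X hX⟩

theorem occ_congr (e : ∀ X, Quad V X → κ' X = κ X) {p : Cl} (h : Occ κ V p) : Occ κ' V p :=
  let ⟨X, hX, hp⟩ := h; ⟨X, hX, (e X hX).trans hp⟩

theorem three_congr (e : ∀ X, Quad V X → κ' X = κ X) (h : Three κ V) : Three κ' V := by
  obtain ⟨h1, y, P, -, -, -, hc⟩ := h
  exact (three_of (y := y) (P := P) (fun h => h1 (two_congr (fun X hX => (e X hX).symm) h))
    fun X hX => e X hX ▸ hc X hX).1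

theorem not_two_of {X₁ X₂ X₃ : ℤ × ℤ} (q₁ : Quad V X₁) (q₂ : Quad V X₂) (q₃ : Quad V X₃)
    (h₁ : κ X₁ ≠ κ X₂) (h₂ : κ X₁ ≠ κ X₃) (h₃ : κ X₂ ≠ κ X₃) : ¬ Two κ V := by
  rintro ⟨P, hP⟩
  rcases hP _ q₁ with a | a <;> rcases hP _ q₂ with b | b <;> rcases hP _ q₃ with c | c <;>
    simp_all

/-- on a vertical side the colour depends only on the row -/
theorem Gen.row {Q : Rect} (h : Gen κ Q) (hV : Cls Q V) (hs : V.1 = Q.x0 ∨ V.1 = Q.x1)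
    {X : ℤ × ℤ} (hX : Quad V X) (a : ℤ) (ha : a = V.1 ∨ a = V.1 - 1) : κ X = κ (a, X.2) := by
  have e : κ (V.1 - 1, X.2) = κ (V.1, X.2) :=
    h.1 _ _ hs (by unfold Cls Quad at *; omega) (by unfold Cls Quad at *; omega)
  obtain ⟨x, y⟩ := X
  rcases hX.1 with h1 | h1 <;> rcases ha with h2 | h2 <;> simp only at h1 e ⊢ <;>
    simp only [h1, h2, e]

/-- on a horizontal side the colour depends only on the column -/
theorem Gen.col {Q : Rect} (h : Gen κ Q) (hV : Cls Q V) (hs : V.2 = Q.y0 ∨ V.2 = Q.y1)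
    {X : ℤ × ℤ} (hX : Quad V X) (b : ℤ) (hb : b = V.2 ∨ b = V.2 - 1) : κ X = κ (X.1, b) := by
  have e : κ (X.1, V.2 - 1) = κ (X.1, V.2) :=
    h.2 _ _ hs (by unfold Cls Quad at *; omega) (by unfold Cls Quad at *; omega)
  obtain ⟨x, y⟩ := X
  rcases hX.2 with h1 | h1 <;> rcases hb with h2 | h2 <;> simp only at h1 e ⊢ <;>
    simp only [h1, h2, e]

theorem Gen.two {Q : Rect} (h : Gen κ Q) (hV : Cls Q V) (hn : ¬ Ins Q V) : Two κ V := by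
  by_cases hs : V.1 = Q.x0 ∨ V.1 = Q.x1
  · refine ⟨(κ (V.1, V.2), κ (V.1, V.2 - 1)), fun X hX => ?_⟩
    rw [h.row hV hs hX V.1 (Or.inl rfl)]
    rcases hX.2 with e | e <;> rw [e]
    · exact Or.inl rfl
    · exact Or.inr rfl
  · refine ⟨(κ (V.1, V.2), κ (V.1 - 1, V.2)), fun X hX => ?_⟩
    rw [h.col hV (by unfold Cls Ins at *; omega) hX V.2 (Or.inl rfl)]
    rcases hX.1 with e | e <;> rw [e]
    · exact Or.inl rfl
    · exact Or.inr rfl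

/-- a boundary vertex with two different colours becomes three-coloured -/
theorem Gen.stem {Q : Rect} (h : Gen κ Q) {c : Cl} (hc : ∀ X, Q.ext.mem X → κ X ≠ c)
    (hx : Q.x0 < Q.x1) (hy : Q.y0 < Q.y1) (hV : Cls Q V) (hn : ¬ Ins Q V) {X X' : ℤ × ℤ}
    (hX : Quad V X) (hX' : Quad V X') (hne : κ X ≠ κ X') : ¬ Two (paint κ Q c) V ∧
      (((V.1 = Q.x0 ∨ V.1 = Q.x1) ∧ Q.y0 < V.2 ∧ V.2 < Q.y1 ∧ X.2 ≠ X'.2) ∨
        ((V.2 = Q.y0 ∨ V.2 = Q.y1) ∧ Q.x0 < V.1 ∧ V.1 < Q.x1 ∧ X.1 ≠ X'.1)) := by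
  have key : ∀ Y Y' Z, Quad V Y → Quad V Y' → Quad V Z → ¬ Q.mem Y → ¬ Q.mem Y' → Q.mem Z →
      κ Y ≠ κ Y' → ¬ Two (paint κ Q c) V := by
    intro Y Y' Z q1 q2 q3 m1 m2 m3 hne
    refine not_two_of q1 q2 q3 ?_ ?_ ?_ <;> simp only [paint, m1, m2, m3, if_true, if_false]
    · exact hne
    · exact hc _ (hV.mem q1)
    · exact hc _ (hV.mem q2)
  by_cases hs : V.1 = Q.x0 ∨ V.1 = Q.x1
  · have hr : X.2 ≠ X'.2 := fun e => hne (by
      rw [h.row hV hs hX V.1 (Or.inl rfl), h.row hV hs hX' V.1 (Or.inl rfl), e])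
    have ht : ¬ (V.2 = Q.y0 ∨ V.2 = Q.y1) := fun ht => hne (by
      rw [h.row hV hs hX V.1 (Or.inl rfl), h.row hV hs hX' V.1 (Or.inl rfl),
        h.col hV ht (X := (V.1, X.2)) ⟨Or.inl rfl, hX.2⟩ V.2 (Or.inl rfl),
        h.col hV ht (X := (V.1, X'.2)) ⟨Or.inl rfl, hX'.2⟩ V.2 (Or.inl rfl)])
    refine ⟨?_, Or.inl ⟨hs, by unfold Cls at hV; omega, by unfold Cls at hV; omega, hr⟩⟩
    obtain ⟨a, a', ha, ha', h1, h2⟩ : ∃ a a', (a = V.1 ∨ a = V.1 - 1) ∧ (a' = V.1 ∨ a' = V.1 - 1) ∧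
        ¬ (Q.x0 ≤ a ∧ a < Q.x1) ∧ (Q.x0 ≤ a' ∧ a' < Q.x1) := by
      rcases hs with e | e
      · exact ⟨V.1 - 1, V.1, by omega⟩
      · exact ⟨V.1, V.1 - 1, by omega⟩
    refine key (a, X.2) (a, X'.2) (a', V.2) ⟨ha, hX.2⟩ ⟨ha, hX'.2⟩ ⟨ha', Or.inl rfl⟩ ?_ ?_ ?_ ?_
    · simp only [Rect.mem]; omega
    · simp only [Rect.mem]; omega
    · unfold Cls at hV; simp only [Rect.mem]; omega
    · rw [← h.row hV hs hX a ha, ← h.row hV hs hX' a ha]; exact hne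
  · have ht : V.2 = Q.y0 ∨ V.2 = Q.y1 := by unfold Cls Ins at *; omega
    have hr : X.1 ≠ X'.1 := fun e => hne (by
      rw [h.col hV ht hX V.2 (Or.inl rfl), h.col hV ht hX' V.2 (Or.inl rfl), e])
    refine ⟨?_, Or.inr ⟨ht, by unfold Cls at hV; omega, by unfold Cls at hV; omega, hr⟩⟩
    obtain ⟨a, a', ha, ha', h1, h2⟩ : ∃ a a', (a = V.2 ∨ a = V.2 - 1) ∧ (a' = V.2 ∨ a' = V.2 - 1) ∧
        ¬ (Q.y0 ≤ a ∧ a < Q.y1) ∧ (Q.y0 ≤ a' ∧ a' < Q.y1) := by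
      rcases ht with e | e
      · exact ⟨V.2 - 1, V.2, by omega⟩
      · exact ⟨V.2, V.2 - 1, by omega⟩
    refine key (X.1, a) (X'.1, a) (V.1, a') ⟨hX.1, ha⟩ ⟨hX'.1, ha⟩ ⟨Or.inl rfl, ha'⟩ ?_ ?_ ?_ ?_
    · simp only [Rect.mem]; omega
    · simp only [Rect.mem]; omega
    · unfold Cls at hV; simp only [Rect.mem]; omega
    · rw [← h.col hV ht hX a ha, ← h.col hV ht hX' a ha]; exact hne

end col

/-! ## the holes before and after painting -/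

section rep

variable {Λ Cl : Type} [Fintype Λ] [DecidableEq Λ] [DecidableEq Cl]

/-- the hole part of `Rep` -/
structure RD (pos : Λ → ℤ × ℤ) (δ η : ℕ) (New : Cl → Prop) (κ : ℤ × ℤ → Cl)
    (HA : Finset (HD Cl)) : Prop where
  h1 : ∀ h ∈ HA, (h.hole pos).O.Nonempty ∧ ∃ V : ℤ × ℤ, h.v = vt δ V ∧ Three κ V ∧
    Occ κ V h.tg ∧ (h.e = η ∨ (h.e = 2 * η ∧ ∀ p, Occ κ V p → ¬ New p))
  h2 : ∀ h ∈ HA, ∀ h' ∈ HA, h.v = h'.v → h = h'
  h3 : ∀ V : ℤ × ℤ, (bx pos (vt δ V) (7 * η)).Nonempty → Two κ V ∨ ∃ h ∈ HA, h.v = vt δ V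

theorem rep_iff {pos : Λ → ℤ × ℤ} {δ η : ℕ} {New : Cl → Prop} {κ : ℤ × ℤ → Cl} {s : CSt Λ Cl} :
    Rep pos δ η New κ s ↔ (∀ z, s.col z = κ (cl δ (pos z))) ∧
      ∃ HA : Finset (HD Cl), s.H = HA.image (HD.hole pos) ∧ RD pos δ η New κ HA :=
  ⟨fun ⟨a, HA, b, c, d, e⟩ => ⟨a, HA, b, c, d, e⟩, fun ⟨a, HA, b, c, d, e⟩ => ⟨a, HA, b, c, d, e⟩⟩

open Classical in
/-- the holes at inner vertices -/
noncomputable def olds (δ : ℕ) (Q : Rect) (HA : Finset (HD Cl)) : Finset (HD Cl) :=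
  HA.filter fun h => ∃ V, Ins Q V ∧ h.v = vt δ V

/-- the vertices of the closed rectangle -/
noncomputable def clsV (Q : Rect) : Finset (ℤ × ℤ) := Finset.Icc Q.x0 Q.x1 ×ˢ Finset.Icc Q.y0 Q.y1

theorem mem_clsV {Q : Rect} {V : ℤ × ℤ} : V ∈ clsV Q ↔ Cls Q V := by
  simp only [clsV, Finset.mem_product, Finset.mem_Icc, Cls, and_assoc]

theorem card_clsV {Q : Rect} (hx : Q.x1 ≤ Q.x0 + 40) (hy : Q.y1 ≤ Q.y0 + 40) :
    (clsV Q).card ≤ 1681 := by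
  rw [clsV, Finset.card_product, Int.card_Icc, Int.card_Icc]
  exact Nat.mul_le_mul (m₂ := 41) (n₂ := 41) (by omega) (by omega)

open Classical in
/-- the vertices which get a new hole -/
noncomputable def newV (pos : Λ → ℤ × ℤ) (δ η : ℕ) (κ : ℤ × ℤ → Cl) (Q : Rect) (c : Cl) :
    Finset (ℤ × ℤ) :=
  (clsV Q).filter fun V => ¬ Two (paint κ Q c) V ∧ (bx pos (vt δ V) (7 * η)).Nonempty

/-- the new holes -/
noncomputable def news (pos : Λ → ℤ × ℤ) (δ η : ℕ) (κ : ℤ × ℤ → Cl) (Q : Rect) (c : Cl) :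
    Finset (HD Cl) := (newV pos δ η κ Q c).image fun V => ⟨vt δ V, η, c⟩

variable {pos : Λ → ℤ × ℤ} {δ η : ℕ} {New : Cl → Prop} {κ : ℤ × ℤ → Cl} {HA : Finset (HD Cl)}
  {Q : Rect} {c : Cl}

omit [DecidableEq Λ] [DecidableEq Cl] in
theorem mem_newV {V : ℤ × ℤ} : V ∈ newV pos δ η κ Q c ↔
    Cls Q V ∧ ¬ Two (paint κ Q c) V ∧ (bx pos (vt δ V) (7 * η)).Nonempty := by
  simp only [newV, Finset.mem_filter, mem_clsV]

omit [DecidableEq Cl] in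
theorem not_ins_of_not_two {V : ℤ × ℤ} (h : ¬ Two (paint κ Q c) V) : ¬ Ins Q V :=
  fun hi => h ⟨(c, c), fun X hX => Or.inl (by simp [paint, hi.mem hX])⟩

omit [DecidableEq Cl] in
theorem mem_olds {h : HD Cl} : h ∈ olds δ Q HA ↔ h ∈ HA ∧ ∃ V, Ins Q V ∧ h.v = vt δ V := by
  simp only [olds, Finset.mem_filter]

omit [DecidableEq Λ] [DecidableEq Cl] in
/-- radius of a hole -/
theorem RD.rad (r : RD pos δ η New κ HA) {h : HD Cl} (hh : h ∈ HA) :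
    (η : ℤ) ≤ h.e ∧ (h.e : ℤ) ≤ 2 * η := by
  obtain ⟨-, V, -, -, -, e | ⟨e, -⟩⟩ := r.h1 h hh <;> rw [e] <;> push_cast <;> omega

omit [DecidableEq Λ] [DecidableEq Cl] in
theorem RD.inj (r : RD pos δ η New κ HA) (hδ : 28 * η ≤ δ) :
    Set.InjOn (HD.hole pos) (HA : Set (HD Cl)) := by
  intro h hh h' hh' e
  obtain ⟨⟨z, hz⟩, V, hV, -⟩ := r.h1 h hh
  obtain ⟨-, V', hV', -⟩ := r.h1 h' hh'
  have hz' := hz
  rw [e] at hz'
  simp only [HD.hole, mem_bx', hV, hV'] at hz hz'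
  have := vert_eq (by have := r.rad hh; have := r.rad hh'; omega) hz hz'
  exact r.h2 h hh h' hh' (by rw [hV, hV', this])

omit [DecidableEq Λ] [DecidableEq Cl] in
/-- a hole which is not at an inner vertex is outside the closed rectangle -/
theorem RD.out (r : RD pos δ η New κ HA) (hg : Gen κ Q) {h : HD Cl} (hh : h ∈ HA)
    (ho : h ∉ olds δ Q HA) : ∃ V, h.v = vt δ V ∧ ¬ Cls Q V := by
  obtain ⟨-, V, hV, h3, -⟩ := r.h1 h hh
  exact ⟨V, hV, fun hc => h3.1 (hg.two hc fun hi => ho (mem_olds.2 ⟨hh, V, hi, hV⟩))⟩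

omit [DecidableEq Λ] in
theorem RD.paint (r : RD pos δ η New κ HA) (hδ : 0 < δ) (hg : Gen κ Q) :
    RD pos δ η New (paint κ Q c) (HA \ olds δ Q HA ∪ news pos δ η κ Q c) := by
  have hout : ∀ V, ¬ Cls Q V → ∀ X, Quad V X → Geo.paint κ Q c X = κ X := fun V hV X hX => by
    simp [Geo.paint, not_mem_of_not_cls hV hX]
  refine ⟨fun h hh => ?_, fun h hh h' hh' e => ?_, fun V hV => ?_⟩
  · rcases Finset.mem_union.1 hh with hh | hh
    · obtain ⟨h1, h2⟩ := Finset.mem_sdiff.1 hh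
      obtain ⟨V', hV', hc⟩ := r.out hg h1 h2
      obtain ⟨a, V, hV, h3, h4, h5⟩ := r.h1 h h1
      obtain rfl := vt_inj hδ (hV.symm.trans hV')
      refine ⟨a, V, hV, three_congr (hout V hc) h3, occ_congr (hout V hc) h4, ?_⟩
      exact h5.imp id fun ⟨e, f⟩ =>
        ⟨e, fun p hp => f p (occ_congr (fun X hX => (hout V hc X hX).symm) hp)⟩
    · obtain ⟨V, hV, rfl⟩ := Finset.mem_image.1 hh
      obtain ⟨h1, h2, h3⟩ := mem_newV.1 hV
      obtain ⟨P, hP⟩ := hg.two h1 (not_ins_of_not_two h2)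
      have := three_of h2 (y := c) (P := P) fun X hX => by
        unfold Geo.paint
        split_ifs
        · exact Or.inr rfl
        · exact Or.inl (hP X hX)
      exact ⟨h3, V, rfl, this.1, this.2, Or.inl rfl⟩
  · have mixed : ∀ h ∈ HA \ olds δ Q HA, ∀ h' ∈ news pos δ η κ Q c, h.v ≠ h'.v := by
      intro h hh h' hh' e
      obtain ⟨V, hV, hc⟩ := r.out hg (Finset.mem_sdiff.1 hh).1 (Finset.mem_sdiff.1 hh).2
      obtain ⟨V', hV', rfl⟩ := Finset.mem_image.1 hh'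
      obtain rfl := vt_inj hδ (hV.symm.trans e)
      exact hc (mem_newV.1 hV').1
    rcases Finset.mem_union.1 hh with hh | hh <;> rcases Finset.mem_union.1 hh' with hh' | hh'
    · exact r.h2 h (Finset.mem_sdiff.1 hh).1 h' (Finset.mem_sdiff.1 hh').1 e
    · exact absurd e (mixed h hh h' hh')
    · exact absurd e.symm (mixed h' hh' h hh)
    · obtain ⟨V, -, rfl⟩ := Finset.mem_image.1 hh
      obtain ⟨V', -, rfl⟩ := Finset.mem_image.1 hh'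
      simp only at e
      rw [e]
  · by_cases hc : Cls Q V
    · by_cases h2 : Two (Geo.paint κ Q c) V
      · exact Or.inl h2
      · exact Or.inr ⟨_, Finset.mem_union_right _
          (Finset.mem_image_of_mem _ (mem_newV.2 ⟨hc, h2, hV⟩)), rfl⟩
    · rcases r.h3 V hV with h2 | ⟨h, hh, e⟩
      · exact Or.inl (two_congr (hout V hc) h2)
      · refine Or.inr ⟨h, Finset.mem_union_left _ (Finset.mem_sdiff.2 ⟨hh, fun ho => ?_⟩), e⟩
        obtain ⟨-, V', hi, e'⟩ := mem_olds.1 ho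
        obtain rfl := vt_inj hδ (e.symm.trans e')
        exact hc hi.cls

/-! ## segments of moves -/

variable {Ex Pt : Finset Λ → Finset Λ → Prop} {I : Finset Cl}

theorem Seg.single {s s' : CSt Λ Cl} (h : Move Ex Pt I s s') : Seg Ex Pt I 1 s s' :=
  Seg.cons h (Seg.nil _)

theorem Seg.append {m m' : ℕ} {s s₁ s' : CSt Λ Cl} (h : Seg Ex Pt I m s s₁)
    (h' : Seg Ex Pt I m' s₁ s') : Seg Ex Pt I (m + m') s s' := by
  induction h with
  | nil => simpa using h'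
  | cons hm _ ih => rw [Nat.add_right_comm]; exact Seg.cons hm (ih h')

/-- one move for every element of a finite set -/
theorem seg_finset {ι : Type} [DecidableEq ι] (S : Finset ι) (st : Finset ι → CSt Λ Cl)
    (h : ∀ T ⊆ S, ∀ i ∈ S, i ∉ T → Move Ex Pt I (st T) (st (insert i T))) :
    Seg Ex Pt I S.card (st ∅) (st S) := by
  suffices ∀ T ⊆ S, Seg Ex Pt I T.card (st ∅) (st T) from this S le_rfl
  intro T
  induction T using Finset.induction_on with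
  | empty => exact fun _ => Seg.nil _
  | insert i T hi ih =>
    intro hT
    rw [Finset.card_insert_of_notMem hi]
    have h1 : T ⊆ S := (Finset.subset_insert _ _).trans hT
    exact (ih h1).append (Seg.single (h T h1 i (hT (Finset.mem_insert_self _ _)) hi))

end rep

end Crest.Agent.N336.P.Geo
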