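import Crest.Agent.N336.P.Geo.Api

/-!
# Row 336, painter schedule: the lens cones and the death cone (helper62)
-/

set_option autoImplicit false

namespace Crest.Agent.N336.P.Geo

open Crest.MathPhysics.LatticeSpin

/-- the lens over an edge of length `δ`, in the coordinates `u` (along) and `d` (depth) -/
def Ln (b δ u d : ℤ) : Prop := 0 ≤ d ∧ 10 * d ≤ 3 * min u (δ - u) ∧ b ≤ min u (δ - u)

/-- the lens with its buffer -/
def Wd (b δ u d : ℤ) : Prop := b < 2 * min u (δ - u) ∧ -max (min u (δ - u)) b < 10 * d ∧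
  10 * d < 4 * max (min u (δ - u)) b

theorem lens_cone (b : ℕ) (hb : 1 ≤ b) (δ : ℤ) (U D : ℤ × ℤ → ℤ) (e₁ e₂ : ℤ × ℤ)
    (h₁ : ∀ z, sd z e₁ = max |U z| |D z|) (h₂ : ∀ z, sd z e₂ = max |U z - δ| |D z|)
    (inj : ∀ z w, U z = U w → D z = D w → z = w)
    (lip : ∀ z w : ℤ × ℤ, |z.1 - w.1| ≤ 1 → |z.2 - w.2| ≤ 1 → |U z - U w| ≤ 1 ∧ |D z - D w| ≤ 1) :
    ∃ cn : Cone K0 b, ∀ z, (max (cn.gam z) b ≤ cn.f z ↔ Ln b δ (U z) (D z)) ∧
      (0 < cn.f z → Wd b δ (U z) (D z)) := by
  set h : ℤ × ℤ → ℤ := fun z => min (U z) (δ - U z) with hh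
  set f : ℤ × ℤ → ℤ := fun z => max 0 (min (10 * D z + max (h z) b)
    (min (4 * max (h z) b - 10 * D z) (2 * h z - b))) with hf
  have hg : ∀ z, 0 < f z → min (sd z e₁) (sd z e₂) = h z ∧ -h z < D z ∧ D z < h z := by
    intro z hz
    rw [h₁, h₂]
    simp only [hf, hh, abs_eq_max_neg] at hz ⊢
    omega
  refine ⟨⟨{e₁, e₂}, fun z => min (sd z e₁) (sd z e₂), f, ?_, ?_, ?_, ?_, ?_⟩, fun z => ⟨?_, ?_⟩⟩
  · exact Finset.card_le_two.trans (by unfold K0; norm_num)
  · intro z p hp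
    rcases Finset.mem_insert.1 hp with rfl | hp
    · exact min_le_left _ _
    · rw [Finset.mem_singleton.1 hp]; exact min_le_right _ _
  · intro z
    rcases min_choice (sd z e₁) (sd z e₂) with e | e
    · exact ⟨e₁, by simp, e⟩
    · exact ⟨e₂, by simp, e⟩
  · intro z w a1 a2
    obtain ⟨b1, b2⟩ := lip z w a1 a2
    rw [abs_le] at b1 b2
    have : f z ≤ f w + 14 := by
      simp only [hf, hh]
      omega
    unfold K0
    push_cast
    omega
  · intro r k T hT
    let g : ℤ × ℤ → ℤ × ℤ × ℤ := fun z =>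
      (if 10 * D z = k then 0 else if 3 * max (h z) b - 10 * D z = k then 1 else 2,
        if U z ≤ δ - U z then 0 else 1,
        if 10 * D z = k ∨ 3 * max (h z) b - 10 * D z = k then h z else D z)
    have hc := Finset.card_le_card_of_injOn (s := T)
      (t := Finset.Icc 0 2 ×ˢ Finset.Icc 0 1 ×ˢ Finset.Icc (-(r : ℤ)) r) g (fun z hz => ?_)
      (fun z hz w hw e => ?_)
    · rw [Finset.card_product, Finset.card_product, Int.card_Icc, Int.card_Icc, Int.card_Icc] at hc
      have e1 : (2 + 1 - 0 : ℤ).toNat = 3 := rfl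
      have e2 : (1 + 1 - 0 : ℤ).toNat = 2 := rfl
      rw [e1, e2] at hc
      unfold K0
      omega
    · obtain ⟨a1, a2, -⟩ := hT z hz
      have := hg z a2
      simp only [g, Finset.coe_product, Set.mem_prod, Finset.mem_coe, Finset.mem_Icc]
      refine ⟨?_, ?_, ?_⟩ <;> split_ifs <;> omega
    · obtain ⟨-, a2, a3⟩ := hT z hz
      obtain ⟨-, b2, b3⟩ := hT w hw
      rw [(hg z a2).1] at a3
      rw [(hg w b2).1] at b3
      simp only [g, Prod.mk.injEq] at e
      obtain ⟨e1, e2, e3⟩ := e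
      simp only [hf] at a2 a3 b2 b3
      have key : h z = h w ∧ D z = D w := by
        split_ifs at e1 e3 <;> omega
      refine inj z w ?_ key.2
      have := key.1
      simp only [hh] at this
      split_ifs at e2 <;> omega
  · show max (min (sd z e₁) (sd z e₂)) b ≤ f z ↔ _
    by_cases hz : 0 < f z
    · rw [(hg z hz).1]
      simp only [hf, hh, Ln]
      omega
    · simp only [hf, hh, Ln] at hz ⊢
      omega
  · intro hz
    have hz' : 0 < f z := hz
    simp only [hf, hh] at hz'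
    unfold Wd
    omega

/-- depth inside a rectangle (negative outside) -/
def dep (R : Rect) (z : ℤ × ℤ) : ℤ :=
  min (min (z.1 - R.x0) (R.x1 - 1 - z.1)) (min (z.2 - R.y0) (R.y1 - 1 - z.2))

theorem death_cone (b : ℕ) (R : Rect) (Z : Finset (ℤ × ℤ)) (hZ : Z.Nonempty)
    (hc : Z.card ≤ 1681) : ∃ cn : Cone K0 b, cn.Z = Z ∧
      ∀ z, cn.f z = 10 * (dep R z + 1) - max (cn.gam z) b := by
  have hex : ∀ z, ∃ p ∈ Z, ∀ p' ∈ Z, sd z p ≤ sd z p' := fun z =>
    Finset.exists_min_image Z (fun p => sd z p) hZ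
  choose ap ap1 ap2 using hex
  have lipg : ∀ z w : ℤ × ℤ, sd z (ap z) ≤ sd w (ap w) + sd z w := fun z w => by
    refine (ap2 z _ (ap1 w)).trans ?_
    simp only [sd, abs_eq_max_neg]
    omega
  refine ⟨⟨Z, fun z => sd z (ap z), fun z => 10 * (dep R z + 1) - max (sd z (ap z)) b,
    hc.trans (by unfold K0; norm_num), ap2, fun z => ⟨ap z, ap1 z, rfl⟩, ?_, ?_⟩, rfl, fun _ => rfl⟩
  · intro z w a1 a2
    have a3 : sd w z ≤ 1 := by rw [abs_le] at a1 a2; rw [sd_le_iff]; omega
    have a4 := lipg w z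
    rw [abs_le] at a1 a2
    unfold K0 dep
    push_cast
    omega
  · intro r k T hT
    let g : ℤ × ℤ → ℤ × (ℤ × ℤ) × ℤ := fun z =>
      (if dep R z = z.1 - R.x0 then 0 else if dep R z = R.x1 - 1 - z.1 then 1 else
        if dep R z = z.2 - R.y0 then 2 else 3, ap z,
        if dep R z = z.1 - R.x0 ∨ dep R z = R.x1 - 1 - z.1 then z.2 - (ap z).2 else z.1 - (ap z).1)
    have hc' := Finset.card_le_card_of_injOn (s := T)
      (t := Finset.Icc 0 3 ×ˢ Z ×ˢ Finset.Icc (-(r : ℤ)) r) g (fun z hz => ?_)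
      (fun z hz w hw e => ?_)
    · rw [Finset.card_product, Finset.card_product, Int.card_Icc, Int.card_Icc] at hc'
      have e1 : (3 + 1 - 0 : ℤ).toNat = 4 := rfl
      have e2 : ((r : ℤ) + 1 - -(r : ℤ)).toNat = 2 * r + 1 := by omega
      rw [e1, e2] at hc'
      have := Nat.mul_le_mul_right (2 * r + 1) hc
      unfold K0
      omega
    · obtain ⟨a1, -, -⟩ := hT z hz
      have a2 := sd_le_iff.1 a1
      simp only [g, Finset.coe_product, Set.mem_prod, Finset.mem_coe, Finset.mem_Icc]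
      refine ⟨?_, ap1 z, ?_⟩ <;> split_ifs <;> omega
    · obtain ⟨-, -, a3⟩ := hT z hz
      obtain ⟨-, -, b3⟩ := hT w hw
      have l1 := lipg z w
      have l2 := lipg w z
      simp only [g, Prod.mk.injEq] at e
      obtain ⟨e1, e2, e3⟩ := e
      rw [e2] at e3
      have d1 : dep R z = z.1 - R.x0 ∨ dep R z = R.x1 - 1 - z.1 ∨ dep R z = z.2 - R.y0 ∨
          dep R z = R.y1 - 1 - z.2 := by unfold dep; omega
      have d2 : dep R w = w.1 - R.x0 ∨ dep R w = R.x1 - 1 - w.1 ∨ dep R w = w.2 - R.y0 ∨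
          dep R w = R.y1 - 1 - w.2 := by unfold dep; omega
      have s1 : sd z w = max (max (z.1 - w.1) (w.1 - z.1)) (max (z.2 - w.2) (w.2 - z.2)) := by
        simp only [sd, abs_eq_max_neg, neg_sub]
      have s2 : sd w z = sd z w := by
        simp only [sd, abs_sub_comm]
      generalize sd z (ap z) = gz at *
      generalize sd w (ap w) = gw at *
      generalize dep R z = dz at *
      generalize dep R w = dw at *
      ext <;> split_ifs at e1 e3 <;> omega

end Crest.Agent.N336.P.Geo
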