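import Crest.Agent.N336.P.Defs

/-!
# Row 336, painter schedule: frozen interface of the leaves of `GeoStmt` (helper50)

`RectStmt` (painting a rectangle by unit patches), `SmallStmt` / `MacroStmt` (painting one square
of the schedule), `BlocksStmt` (bookkeeping), `RoutesStmt` (routes and counts), `SchedStmt`
(the schedule).
-/

set_option autoImplicit false

namespace Crest.Agent.N336.P.Geo

open Crest.MathPhysics.LatticeSpin

/-- The universal size constant of one block. -/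
def K0 : ℕ := 10 ^ 9

section seg

variable {Λ Cl : Type} [Fintype Λ] [DecidableEq Λ] [DecidableEq Cl]

/-- One move with party set `I`. -/
def Move (Ex Pt : Finset Λ → Finset Λ → Prop) (I : Finset Cl) (s s' : CSt Λ Cl) : Prop :=
  ExchMove Ex I s s' ∨ PaintMove Pt K0 I s s' ∨ FinMove K0 I s s'

/-- `m` consecutive moves with the same party set `I`. -/
inductive Seg (Ex Pt : Finset Λ → Finset Λ → Prop) (I : Finset Cl) :
    ℕ → CSt Λ Cl → CSt Λ Cl → Prop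
  | nil (s : CSt Λ Cl) : Seg Ex Pt I 0 s s
  | cons {m : ℕ} {s s₁ s' : CSt Λ Cl} : Move Ex Pt I s s₁ → Seg Ex Pt I m s₁ s' →
      Seg Ex Pt I (m + 1) s s'

/-- A list of blocks, each of at most `K0` moves. -/
inductive Blocks {β : Type} (Ex Pt : Finset Λ → Finset Λ → Prop) (I : β → Finset Cl) :
    List β → CSt Λ Cl → CSt Λ Cl → Prop
  | nil (s : CSt Λ Cl) : Blocks Ex Pt I [] s s
  | cons {b : β} {l : List β} {m : ℕ} {s s₁ s' : CSt Λ Cl} : m ≤ K0 → Seg Ex Pt (I b) m s s₁ →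
      Blocks Ex Pt I l s₁ s' → Blocks Ex Pt I (b :: l) s s'

/-- Sites in the half-open square of centre `v` and radius `r`. -/
def bx (pos : Λ → ℤ × ℤ) (v : ℤ × ℤ) (r : ℤ) : Finset Λ := sq pos (v.1 - r) (v.2 - r) (2 * r)

/-- Hole descriptor: centre, unit, tag owner. -/
@[ext] structure HD (Cl : Type) where
  v : ℤ × ℤ
  e : ℕ
  tg : Cl
  deriving DecidableEq

/-- The hole of a descriptor: inner radius `6 e`, outer radius `7 e`. -/
def HD.hole (pos : Λ → ℤ × ℤ) (h : HD Cl) : Hole Λ Cl :=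
  ⟨bx pos h.v (6 * h.e), bx pos h.v (7 * h.e), h.tg⟩

/-- Patch families exist for all squares of side `≤ 30 η` with margin `η`. -/
def PtAt (pos : Λ → ℤ × ℤ) (Pt : Finset Λ → Finset Λ → Prop) (η : ℕ) : Prop :=
  ∀ (w : ℕ) (x y : ℤ), w ≤ 30 * η → Pt (sq pos x y w) (sq pos (x - η) (y - η) (w + 2 * η))

end seg

/-- Half-open rectangle `[x0, x1) × [y0, y1)`. -/
structure Rect where
  x0 : ℤ
  x1 : ℤ
  y0 : ℤ
  y1 : ℤ

/-- Membership in a rectangle. -/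
def Rect.mem (Q : Rect) (z : ℤ × ℤ) : Prop := Q.x0 ≤ z.1 ∧ z.1 < Q.x1 ∧ Q.y0 ≤ z.2 ∧ z.2 < Q.y1

instance (Q : Rect) (z : ℤ × ℤ) : Decidable (Q.mem z) := by unfold Rect.mem; infer_instance

/-- Painting a rectangle by unit patches (site level). The rectangle `Q` is given in units of
`η`; `old` are the holes decoded (third colour `yy`, cover `pr`), `new` the holes encoded (all of
unit `η`, effect pairs `pr'`). -/
def RectStmt : Prop :=
  ∀ (Λ Cl : Type) [Fintype Λ] [DecidableEq Λ] [DecidableEq Cl] (pos : Λ → ℤ × ℤ)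
    (Pt : Finset Λ → Finset Λ → Prop) (η : ℕ) (Q : Rect) (c : Cl) (I : Finset Cl)
    (s s' : CSt Λ Cl) (old new : Finset (HD Cl)) (yy : HD Cl → Cl) (pr pr' : HD Cl → Cl × Cl),
    1 ≤ η → PtAt pos Pt η → Q.x1 - Q.x0 ≤ 20000 → Q.y1 - Q.y0 ≤ 20000 →
    old.card ≤ 10000 → new.card ≤ 10000 →
    let inQ : Λ → Prop := fun z => (⟨η * Q.x0, η * Q.x1, η * Q.y0, η * Q.y1⟩ : Rect).mem (pos z)
    let nearQ : Λ → Prop := fun z =>
      (⟨η * Q.x0 - η, η * Q.x1 + η, η * Q.y0 - η, η * Q.y1 + η⟩ : Rect).mem (pos z)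
    -- states
    (∀ z, inQ z → s'.col z = c) → (∀ z, ¬ inQ z → s'.col z = s.col z) →
    old.image (HD.hole pos) ⊆ s.H →
    s'.H = (s.H \ old.image (HD.hole pos)) ∪ new.image (HD.hole pos) →
    -- parties
    c ∈ I → (∀ z, nearQ z → s.col z ∈ I) →
    -- (R1) a box of side `6 η` sees at most two colours near `Q` outside the inner old holes
    (∀ x y : ℤ, ∃ P : Cl × Cl, ∀ z ∈ sq pos x y (6 * η), nearQ z →
      (∀ v ∈ old, z ∉ (v.hole pos).I) → Mem (s.col z) P) →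
    -- (R2) old holes
    (∀ v ∈ old, (pr v).1 ∈ I ∧ (pr v).2 ∈ I ∧ v.tg ∈ I ∧ ¬ Mem c (pr v) ∧ c ≠ yy v ∧
      ∀ z ∈ bx pos v.v (7 * v.e + 6 * η), inQ z ∧ (Mem (s.col z) (pr v) ∨ s.col z = yy v)) →
    (∀ v ∈ old, ∀ v' ∈ old, v ≠ v' →
      Disjoint (bx pos v.v (7 * v.e + 6 * η)) (bx pos v'.v (7 * v'.e + 6 * η))) →
    -- (R3) new holes
    (∀ w ∈ new, w.e = η ∧ (w.hole pos).O.Nonempty ∧ (pr' w).1 ∈ I ∧ (pr' w).2 ∈ I ∧ w.tg ∈ I ∧
      (∀ z ∈ bx pos w.v (10 * η), Mem (s.col z) (pr' w)) ∧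
      (∀ v ∈ old, Disjoint (bx pos w.v (10 * η)) (bx pos v.v (7 * v.e + 6 * η))) ∧
      ∀ w' ∈ new, w ≠ w' → Disjoint (w.hole pos).O (w'.hole pos).O) →
    (∀ z z' z'' : Λ, nearQ z → nearQ z' → nearQ z'' → ¬ inQ z → sd (pos z) (pos z') < 3 * η →
      sd (pos z) (pos z'') < 3 * η → sd (pos z') (pos z'') < 3 * η →
      s.col z' ≠ s.col z'' → s.col z' ≠ c → s.col z'' ≠ c →
      ∃ w ∈ new, z ∈ (w.hole pos).I) →
    -- (R4) the other holes are far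
    (∀ v ∈ s.H \ old.image (HD.hole pos), (∀ z ∈ v.O, ¬ nearQ z) ∧
      ∀ w ∈ new, Disjoint v.O (w.hole pos).O) →
    PaintMove Pt K0 I s s'

section rep

variable {Λ Cl : Type} [Fintype Λ] [DecidableEq Λ] [DecidableEq Cl]

/-- The `δ`-cell of a point. -/
def cl (δ : ℕ) (z : ℤ × ℤ) : ℤ × ℤ := (z.1 / δ, z.2 / δ)

/-- The four cells around the vertex `V` (cell coordinates). -/
def Quad (V X : ℤ × ℤ) : Prop := (X.1 = V.1 ∨ X.1 = V.1 - 1) ∧ (X.2 = V.2 ∨ X.2 = V.2 - 1)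

/-- At most two colours around the vertex `V`. -/
def Two (κ : ℤ × ℤ → Cl) (V : ℤ × ℤ) : Prop := ∃ P : Cl × Cl, ∀ X, Quad V X → Mem (κ X) P

/-- The colour `p` occurs around the vertex `V`. -/
def Occ (κ : ℤ × ℤ → Cl) (V : ℤ × ℤ) (p : Cl) : Prop := ∃ X, Quad V X ∧ κ X = p

/-- Exactly three colours around the vertex `V`. -/
def Three (κ : ℤ × ℤ → Cl) (V : ℤ × ℤ) : Prop :=
  ¬ Two κ V ∧ ∃ (y : Cl) (P : Cl × Cl), Occ κ V y ∧ Occ κ V P.1 ∧ Occ κ V P.2 ∧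
    ∀ X, Quad V X → Mem (κ X) P ∨ κ X = y

/-- The state `s` is the cell colouring `κ` of the `δ`-grid with encoded holes at its relevant
three-coloured vertices. `New` are the colours of the current generation. -/
def Rep (pos : Λ → ℤ × ℤ) (δ η : ℕ) (New : Cl → Prop) (κ : ℤ × ℤ → Cl) (s : CSt Λ Cl) : Prop :=
  (∀ z, s.col z = κ (cl δ (pos z))) ∧ ∃ HA : Finset (HD Cl), s.H = HA.image (HD.hole pos) ∧
    (∀ h ∈ HA, (h.hole pos).O.Nonempty ∧ ∃ V : ℤ × ℤ, h.v = (δ * V.1, δ * V.2) ∧ Three κ V ∧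
      Occ κ V h.tg ∧ (h.e = η ∨ (h.e = 2 * η ∧ ∀ p, Occ κ V p → ¬ New p))) ∧
    (∀ h ∈ HA, ∀ h' ∈ HA, h.v = h'.v → h = h') ∧
    ∀ V : ℤ × ℤ, (bx pos (δ * V.1, δ * V.2) (7 * η)).Nonempty →
      Two κ V ∨ ∃ h ∈ HA, h.v = (δ * V.1, δ * V.2)

/-- No interface runs along the sides of `Q` (cell coordinates, one cell beyond the corners). -/
def Gen (κ : ℤ × ℤ → Cl) (Q : Rect) : Prop :=
  (∀ X Y, (X = Q.x0 ∨ X = Q.x1) → Q.y0 - 1 ≤ Y → Y ≤ Q.y1 → κ (X - 1, Y) = κ (X, Y)) ∧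
  (∀ X Y, (Y = Q.y0 ∨ Y = Q.y1) → Q.x0 - 1 ≤ X → X ≤ Q.x1 → κ (X, Y - 1) = κ (X, Y))

/-- Painting the cells of `Q` with the colour `c`. -/
def paint (κ : ℤ × ℤ → Cl) (Q : Rect) (c : Cl) : ℤ × ℤ → Cl := fun X => if Q.mem X then c else κ X

/-- Specification of painting one rectangle `Q` of cells. -/
def PaintSpec (pos : Λ → ℤ × ℤ) (Ex Pt : Finset Λ → Finset Λ → Prop) (δ η : ℕ) : Prop :=
  ∀ (New : Cl → Prop) (κ : ℤ × ℤ → Cl) (Q : Rect) (c : Cl) (I : Finset Cl) (s : CSt Λ Cl),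
    Rep pos δ η New κ s → Gen κ Q → Q.x0 + 2 ≤ Q.x1 → Q.x1 ≤ Q.x0 + 40 → Q.y0 + 2 ≤ Q.y1 →
    Q.y1 ≤ Q.y0 + 40 → New c → c ∈ I →
    (∀ X, (⟨Q.x0 - 1, Q.x1 + 1, Q.y0 - 1, Q.y1 + 1⟩ : Rect).mem X → κ X ≠ c ∧
      ((∃ z, sd (cl δ (pos z)) X ≤ 1) → κ X ∈ I)) →
    ∃ (m : ℕ) (s' : CSt Λ Cl), m ≤ K0 ∧ Seg Ex Pt I m s s' ∧ Rep pos δ η New (paint κ Q c) s'

end rep

/-- Small regime: `δ = 256 η`, one paint move. -/
def SmallStmt : Prop :=
  ∀ (Λ Cl : Type) [Fintype Λ] [DecidableEq Λ] [DecidableEq Cl] (pos : Λ → ℤ × ℤ)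
    (Ex Pt : Finset Λ → Finset Λ → Prop) (η : ℕ), 1 ≤ η → PtAt pos Pt η →
    PaintSpec (Cl := Cl) pos Ex Pt (256 * η) η

/-- Macro regime: `δ = 512 η j`; births of lenses, local paints at the apexes, one death. -/
def MacroStmt : Prop :=
  ∀ (Λ Cl : Type) [Fintype Λ] [DecidableEq Λ] [DecidableEq Cl] (pos : Λ → ℤ × ℤ)
    (Ex Pt : Finset Λ → Finset Λ → Prop) (η j : ℕ), 1 ≤ η → 1 ≤ j → PtAt pos Pt η →
    (∀ cn : Cone K0 (128 * η), Ex (cn.A pos) (cn.F pos)) →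
    PaintSpec (Cl := Cl) pos Ex Pt (512 * η * j) η

/-- Block level routes. -/
structure BRoutes (L : ℕ) (Pa β : Type) [DecidableEq Pa] (S : Finset β) (κ : ℕ)
    (fin : Fin L × Fin L → Pa) (I : β → Finset Pa) where
  loc : Pa → Fin L × Fin L
  rg : β → Finset (Fin L × Fin L)
  rp : Pa → Finset (Fin L × Fin L)
  conn_g : ∀ b ∈ S, ((gridGraph L).induce (rg b : Set (Fin L × Fin L))).Connected
  conn_p : ∀ z, ((gridGraph L).induce (rp (fin z) : Set (Fin L × Fin L))).Connected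
  mem_g : ∀ b ∈ S, ∀ p ∈ I b, loc p ∈ rg b
  mem_p : ∀ z, loc (fin z) ∈ rp (fin z)
  mem_fin : ∀ z, z ∈ rp (fin z)
  cong_g : ∀ z, (S.filter fun b => z ∈ rg b).card ≤ κ
  cong_p : ∀ z, ((Finset.univ.image fin).filter fun p => z ∈ rp p).card ≤ κ
  card_I : ∀ b ∈ S, (I b).Nonempty ∧ (I b).card ≤ κ
  mult : ∀ p, (S.filter fun b => p ∈ I b).card ≤ κ

/-- From blocks to a plan with routes. -/
def BlocksStmt : Prop :=
  ∀ (L : ℕ) (Pa β : Type) [Fintype Pa] [DecidableEq Pa] [DecidableEq β] (S : Finset β) (κ : ℕ)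
    (Ex Pt : Finset (Fin L × Fin L) → Finset (Fin L × Fin L) → Prop) (fin : Fin L × Fin L → Pa)
    (I : β → Finset Pa) (l : List β) (root : Pa), l.Nodup → (∀ b ∈ l, b ∈ S) →
    Blocks Ex Pt I l ⟨fun _ => root, ∅⟩ ⟨fin, ∅⟩ → Nonempty (BRoutes L Pa β S κ fin I) →
    ∃ (n : ℕ) (I' : ℕ → Finset Pa), n ≤ K0 * S.card ∧
      Nonempty (Plan (Fin L × Fin L) Pa Ex Pt n K0 K0 fin I') ∧
      (∀ t < n, (I' t).Nonempty ∧ (I' t).card ≤ κ) ∧
      (∀ p, ((Finset.range n).filter fun t => p ∈ I' t).card ≤ K0 * κ) ∧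
      Nonempty (Routes L Pa n (K0 * κ + κ) fin I')

/-! ## The schedule -/

/-- Parties: the root and the squares `(i, a, b)`. -/
abbrev Pty (L : ℕ) := Option (Fin (L + 2) × Fin (L + 2) × Fin (L + 2))

/-- The party of the square `(i, a, b)` (the root when out of range). -/
def pty (L i : ℕ) (a b : ℤ) : Pty L :=
  if h : i < L + 2 ∧ a.toNat < L + 2 ∧ b.toNat < L + 2 ∧ 0 ≤ a ∧ 0 ≤ b then
    some (⟨i, h.1⟩, ⟨a.toNat, h.2.1⟩, ⟨b.toNat, h.2.2.1⟩) else none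

/-- Grid unit of generation `i`. -/
def del (i : ℕ) : ℕ := 256 * 2 ^ i

/-- Largest index of a painted square of generation `i`. -/
def amax (L i : ℕ) : ℕ := L / (32 * del i) + 1

/-- Class of the square `(a, b)`. -/
def cls (a b : ℤ) : ℤ := a % 2 + 2 * (b % 2)

/-- The square `(a, b)` in cell coordinates of its generation. -/
def sqr (a b : ℤ) : Rect :=
  ⟨32 * a - (17 + cls a b), 32 * a + (17 + cls a b), 32 * b - (17 + cls a b),
    32 * b + (17 + cls a b)⟩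

/-- Blocks: `(false, i, a, b)` paints a square, `(true, 0, a, b)` decodes its holes at the end. -/
abbrev Blk := Bool × ℕ × ℕ × ℕ

/-- The blocks of the schedule with top generation `top`. -/
def BS (L top : ℕ) : Finset Blk :=
  (Finset.univ ×ˢ Finset.range (top + 1) ×ˢ Finset.range (L + 2) ×ˢ Finset.range (L + 2)).filter
    fun b => b.2.2.1 ≤ amax L b.2.1 ∧ b.2.2.2 ≤ amax L b.2.1 ∧ (b.1 = true → b.2.1 = 0)

open Classical in
/-- The parties of a block: painted squares of the same generation at index distance `≤ 1`, painted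
squares of the previous generation at index distance `≤ 1` from `(a / 2, b / 2)`, or the root in the
top generation. -/
noncomputable def NbI (L top : ℕ) (b : Blk) : Finset (Pty L) :=
  Finset.univ.filter fun p => match p with
    | none => b.2.1 = top
    | some (i, a', b') =>
      a'.1 ≤ amax L i ∧ b'.1 ≤ amax L i ∧
      ((i.1 = b.2.1 ∧ a'.1 ≤ b.2.2.1 + 1 ∧ b.2.2.1 ≤ a'.1 + 1 ∧ b'.1 ≤ b.2.2.2 + 1 ∧
          b.2.2.2 ≤ b'.1 + 1) ∨
        (i.1 = b.2.1 + 1 ∧ i.1 ≤ top ∧ a'.1 ≤ b.2.2.1 / 2 + 1 ∧ b.2.2.1 / 2 ≤ a'.1 + 1 ∧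
          b'.1 ≤ b.2.2.2 / 2 + 1 ∧ b.2.2.2 / 2 ≤ b'.1 + 1))

/-- The final owner of a site is a painted square of generation `0` containing it. -/
def FinOK (L : ℕ) (fin : Fin L × Fin L → Pty L) : Prop :=
  ∀ z, ∃ a b : ℕ, a ≤ amax L 0 ∧ b ≤ amax L 0 ∧ fin z = pty L 0 a b ∧
    (sqr a b).mem (cl (del 0) (gpos L z))

/-- Routes and counts of the schedule. -/
def RoutesStmt : Prop :=
  ∀ (L top : ℕ) (fin : Fin L × Fin L → Pty L), 32 * del top ≤ L → L < 64 * del top →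
    FinOK L fin → Nonempty (BRoutes L (Pty L) Blk (BS L top) 10000 fin (NbI L top)) ∧
      (BS L top).card ≤ 16 * L ^ 3 ∧
      ∀ p, (Finset.univ.filter fun z => fin z = p).card ≤ K0

/-- The schedule, given the painting specification in every generation. -/
def SchedStmt : Prop :=
  ∀ (L top i₁ : ℕ) (Ex Pt : Finset (Fin L × Fin L) → Finset (Fin L × Fin L) → Prop),
    32 * del top ≤ L → L < 64 * del top →
    (∀ i ≤ top, PaintSpec (Cl := Pty L) (gpos L) Ex Pt (del i) (2 ^ min i i₁)) →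
    ∃ (l : List Blk) (fin : Fin L × Fin L → Pty L), l.Nodup ∧ (∀ b ∈ l, b ∈ BS L top) ∧
      FinOK L fin ∧ Blocks Ex Pt (NbI L top) l ⟨fun _ => none, ∅⟩ ⟨fin, ∅⟩

end Crest.Agent.N336.P.Geo
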