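import Crest.Agent.N336.P.Geo.Small
import Crest.Agent.N336.P.Geo.Cones

/-!
# Row 336, painter schedule: geometry of the macro regime (helper62)
-/

set_option autoImplicit false

namespace Crest.Agent.N336.P.Geo.Mac

open Crest.MathPhysics.LatticeSpin

/-- boundary edges: (vertical side?, far side?, index) -/
abbrev Ed := Bool × Bool × ℤ

/-- coordinate along the edge -/
def eU (δ : ℕ) (e : Ed) (z : ℤ × ℤ) : ℤ := (if e.1 then z.2 else z.1) - δ * e.2.2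

/-- depth coordinate -/
def eD (δ : ℕ) (Q : Rect) (e : Ed) (z : ℤ × ℤ) : ℤ :=
  if e.1 then (if e.2.1 then δ * Q.x1 - 1 - z.1 else z.1 - δ * Q.x0)
  else (if e.2.1 then δ * Q.y1 - 1 - z.2 else z.2 - δ * Q.y0)

/-- the edge belongs to the boundary of `Q` -/
def eOK (Q : Rect) (e : Ed) : Prop :=
  if e.1 then Q.y0 ≤ e.2.2 ∧ e.2.2 < Q.y1 else Q.x0 ≤ e.2.2 ∧ e.2.2 < Q.x1

/-- the boundary edges -/
noncomputable def edges (Q : Rect) : Finset Ed :=
  ({false} ×ˢ Finset.univ ×ˢ Finset.Ico Q.x0 Q.x1) ∪ ({true} ×ˢ Finset.univ ×ˢ Finset.Ico Q.y0 Q.y1)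

theorem mem_edges {Q : Rect} {e : Ed} : e ∈ edges Q ↔ eOK Q e := by
  rcases e with ⟨_ | _, fl, k⟩ <;> simp [edges, eOK]

theorem card_edges {Q : Rect} (hx : Q.x1 ≤ Q.x0 + 40) (hy : Q.y1 ≤ Q.y0 + 40) :
    (edges Q).card ≤ 160 := by
  refine (Finset.card_union_le _ _).trans ?_
  simp only [Finset.card_product, Finset.card_singleton, Finset.card_univ, Fintype.card_bool,
    Int.card_Ico]
  omega

/-- the boundary vertices -/
noncomputable def bd (Q : Rect) : Finset (ℤ × ℤ) := (clsV Q).filter fun V => ¬ Ins Q V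

theorem mem_bd {Q : Rect} {V : ℤ × ℤ} : V ∈ bd Q ↔ Cls Q V ∧ ¬ Ins Q V := by
  simp only [bd, Finset.mem_filter, mem_clsV]

/-- lens of an edge -/
def LL (δ η : ℕ) (Q : Rect) (e : Ed) (z : ℤ × ℤ) : Prop := Ln (128 * η) δ (eU δ e z) (eD δ Q e z)

/-- lens with buffer -/
def WW (δ η : ℕ) (Q : Rect) (e : Ed) (z : ℤ × ℤ) : Prop := Wd (128 * η) δ (eU δ e z) (eD δ Q e z)

/-- the two cells at an edge -/
def wide (δ : ℕ) (Q : Rect) (e : Ed) (z : ℤ × ℤ) : Prop :=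
  0 ≤ eU δ e z ∧ eU δ e z < δ ∧ -(δ : ℤ) ≤ eD δ Q e z ∧ eD δ Q e z < δ

/-- centre of the inner hole at the vertex `V` -/
def pp (δ η : ℕ) (Q : Rect) (V : ℤ × ℤ) : ℤ × ℤ :=
  (if V.1 = Q.x0 then δ * V.1 + 128 * η else if V.1 = Q.x1 then δ * V.1 - 128 * η else δ * V.1,
    if V.2 = Q.y0 then δ * V.2 + 128 * η else if V.2 = Q.y1 then δ * V.2 - 128 * η else δ * V.2)

/-- a boundary vertex which is not a corner -/
def NC (Q : Rect) (V : ℤ × ℤ) : Prop :=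
  ((V.1 = Q.x0 ∨ V.1 = Q.x1) ∧ Q.y0 < V.2 ∧ V.2 < Q.y1) ∨
    ((V.2 = Q.y0 ∨ V.2 = Q.y1) ∧ Q.x0 < V.1 ∧ V.1 < Q.x1)

/-- standing assumptions -/
structure Ctx (δ η : ℕ) (Q : Rect) : Prop where
  eta : 1 ≤ η
  del : 512 * η ≤ δ
  hx : Q.x0 + 2 ≤ Q.x1
  hy : Q.y0 + 2 ≤ Q.y1

variable {δ η : ℕ} {Q : Rect}

theorem Ctx.pos (C : Ctx δ η Q) : 0 < δ := by have := C.eta; have := C.del; omega

theorem Ctx.X (C : Ctx δ η Q) : δ * Q.x0 + 2 * δ ≤ δ * Q.x1 := by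
  have := mul_le δ C.hx; linarith

theorem Ctx.Y (C : Ctx δ η Q) : δ * Q.y0 + 2 * δ ≤ δ * Q.y1 := by
  have := mul_le δ C.hy; linarith

theorem eOK.rng {e : Ed} (h : eOK Q e) :
    if e.1 then δ * Q.y0 ≤ δ * e.2.2 ∧ δ * e.2.2 + δ ≤ δ * Q.y1
    else δ * Q.x0 ≤ δ * e.2.2 ∧ δ * e.2.2 + δ ≤ δ * Q.x1 := by
  rcases e with ⟨_ | _, fl, k⟩ <;> simp only [eOK, Bool.false_eq_true, if_true, if_false] at h ⊢ <;>
    exact ⟨mul_le δ h.1, mul_step δ h.2⟩

theorem exists_lens (C : Ctx δ η Q) (e : Ed) : ∃ cn : Cone K0 (128 * η), ∀ z,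
    (max (cn.gam z) ((128 * η : ℕ) : ℤ) ≤ cn.f z ↔ LL δ η Q e z) ∧ (0 < cn.f z → WW δ η Q e z) := by
  have := C.eta
  have key := fun e₁ e₂ => lens_cone (128 * η) (by omega) δ (eU δ e) (eD δ Q e) e₁ e₂
  have cast : ((128 * η : ℕ) : ℤ) = 128 * η := by push_cast; ring
  unfold LL WW
  rw [← cast]
  rcases e with ⟨_ | _, _ | _, k⟩
  · refine key (δ * k, δ * Q.y0) (δ * k + δ, δ * Q.y0) ?_ ?_ ?_ ?_ <;>
      simp only [sd, eU, eD, abs_le, Bool.false_eq_true, if_false, Prod.ext_iff] <;>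
      (try simp only [abs_eq_max_neg]) <;> intros <;> first | trivial | omega
  · refine key (δ * k, δ * Q.y1 - 1) (δ * k + δ, δ * Q.y1 - 1) ?_ ?_ ?_ ?_ <;>
      simp only [sd, eU, eD, abs_le, Bool.false_eq_true, if_false, if_true, Prod.ext_iff] <;>
      (try simp only [abs_eq_max_neg]) <;> intros <;> first | trivial | omega
  · refine key (δ * Q.x0, δ * k) (δ * Q.x0, δ * k + δ) ?_ ?_ ?_ ?_ <;>
      simp only [sd, eU, eD, abs_le, Bool.false_eq_true, if_false, if_true, Prod.ext_iff] <;>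
      (try simp only [abs_eq_max_neg]) <;> intros <;> first | trivial | omega
  · refine key (δ * Q.x1 - 1, δ * k) (δ * Q.x1 - 1, δ * k + δ) ?_ ?_ ?_ ?_ <;>
      simp only [sd, eU, eD, abs_le, if_true, Prod.ext_iff] <;>
      (try simp only [abs_eq_max_neg]) <;> intros <;> first | trivial | omega

/-- buffers miss the other lenses -/
theorem ww_ll (C : Ctx δ η Q) {e e' : Ed} (h : eOK Q e) (h' : eOK Q e') (hne : e ≠ e')
    {z : ℤ × ℤ} (hw : WW δ η Q e z) : ¬ LL δ η Q e' z := by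
  have r := h.rng (δ := δ)
  have r' := h'.rng (δ := δ)
  have := C.X
  have := C.Y
  have := C.del
  have := C.eta
  have t := mul_tri δ e.2.2 e'.2.2
  rcases e with ⟨_ | _, _ | _, k⟩ <;> rcases e' with ⟨_ | _, _ | _, k'⟩ <;>
    simp only [WW, LL, Wd, Ln, eU, eD, Bool.false_eq_true, if_false, if_true, ne_eq,
      Prod.mk.injEq, true_and] at r r' t hne hw ⊢ <;> omega

theorem ww_wide (C : Ctx δ η Q) {e : Ed} {z : ℤ × ℤ} (hw : WW δ η Q e z) : wide δ Q e z := by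
  have := C.del
  simp only [WW, Wd, wide] at hw ⊢
  omega

theorem ll_wide (C : Ctx δ η Q) {e : Ed} {z z' : ℤ × ℤ} (hl : LL δ η Q e z)
    (hd : sd z z' < 6 * η) : wide δ Q e z' := by
  have := C.del
  rw [sd_lt_iff] at hd
  rcases e with ⟨_ | _, _ | _, k⟩ <;>
    simp only [LL, Ln, wide, eU, eD, Bool.false_eq_true, if_false, if_true] at hl ⊢ <;> omega

theorem wide_col {Cl : Type} {κ : ℤ × ℤ → Cl} (C : Ctx δ η Q) (hg : Gen κ Q) {e : Ed}
    (h : eOK Q e) : ∃ n, ∀ z, wide δ Q e z → κ (cl δ z) = n ∧ Q.ext.mem (cl δ z) := by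
  have r := h.rng (δ := δ)
  have := C.X
  have := C.Y
  have hx := C.hx
  have hy := C.hy
  have hδ := C.pos
  rcases e with ⟨_ | _, fl, k⟩
  · obtain ⟨y, hy', hw⟩ : ∃ y, (y = Q.y0 ∨ y = Q.y1) ∧ ∀ z, wide δ Q (false, fl, k) z →
        nr (vt δ (k, y)) δ z ∧ δ * k ≤ z.1 := by
      cases fl
      · exact ⟨Q.y0, Or.inl rfl, fun z hz => by
          simp only [wide, eU, eD, nr, vt, Bool.false_eq_true, if_false] at hz ⊢; omega⟩
      · exact ⟨Q.y1, Or.inr rfl, fun z hz => by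
          simp only [wide, eU, eD, nr, vt, Bool.false_eq_true, if_false, if_true] at hz ⊢; omega⟩
    simp only [eOK, Bool.false_eq_true, if_false] at h
    have hc : Cls Q (k, y) := by simp only [Cls]; omega
    refine ⟨κ (k, y), fun z hz => ?_⟩
    have q := quad_of_nr hδ le_rfl (hw z hz).1
    have e1 := (le_dv hδ k z.1).2 (hw z hz).2
    have e2 : (cl δ z).1 = k := by have := q.1; simp only [cl] at *; omega
    exact ⟨by rw [hg.col hc hy' q y (Or.inl rfl), e2], hc.mem q⟩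
  · obtain ⟨x, hx', hw⟩ : ∃ x, (x = Q.x0 ∨ x = Q.x1) ∧ ∀ z, wide δ Q (true, fl, k) z →
        nr (vt δ (x, k)) δ z ∧ δ * k ≤ z.2 := by
      cases fl
      · exact ⟨Q.x0, Or.inl rfl, fun z hz => by
          simp only [wide, eU, eD, nr, vt, Bool.false_eq_true, if_false, if_true] at hz ⊢; omega⟩
      · exact ⟨Q.x1, Or.inr rfl, fun z hz => by
          simp only [wide, eU, eD, nr, vt, if_true] at hz ⊢; omega⟩
    simp only [eOK, if_true] at h
    have hc : Cls Q (x, k) := by simp only [Cls]; omega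
    refine ⟨κ (x, k), fun z hz => ?_⟩
    have q := quad_of_nr hδ le_rfl (hw z hz).1
    have e1 := (le_dv hδ k z.2).2 (hw z hz).2
    have e2 : (cl δ z).2 = k := by have := q.2; simp only [cl] at *; omega
    exact ⟨by rw [hg.row hc hx' q x (Or.inl rfl), e2], hc.mem q⟩

theorem ww_vert {e : Ed} {z V : ℤ × ℤ} {r : ℤ} (hr : r ≤ 64 * η) (hw : WW δ η Q e z) :
    ¬ nr (vt δ V) r z := by
  have t1 := mul_tri δ V.1 e.2.2
  have t2 := mul_tri δ V.2 e.2.2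
  rcases e with ⟨_ | _, fl, k⟩ <;>
    simp only [WW, Wd, nr, vt, eU, Bool.false_eq_true, if_false, if_true] at hw t1 t2 ⊢ <;> omega

theorem ll_ww (C : Ctx δ η Q) {e : Ed} {z : ℤ × ℤ} (hl : LL δ η Q e z) : WW δ η Q e z := by
  have := C.eta
  simp only [WW, LL, Wd, Ln] at hl ⊢
  omega

theorem ll_mem (C : Ctx δ η Q) {e : Ed} (h : eOK Q e) {z : ℤ × ℤ} (hl : LL δ η Q e z) :
    (Q.sc δ).mem z := by
  have r := h.rng (δ := δ)
  have := C.X
  have := C.Y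
  have := C.eta
  rcases e with ⟨_ | _, _ | _, k⟩ <;>
    simp only [LL, Ln, Rect.mem, Rect.sc, eU, eD, Bool.false_eq_true, if_false, if_true]
      at hl r ⊢ <;> omega

theorem NC.cases (C : Ctx δ η Q) {V : ℤ × ℤ} (h : NC Q V) :
    (δ * Q.y0 + δ ≤ δ * V.2 ∧ δ * V.2 + δ ≤ δ * Q.y1 ∧ (pp δ η Q V).2 = δ * V.2 ∧
      ((δ * V.1 = δ * Q.x0 ∧ (pp δ η Q V).1 = δ * V.1 + 128 * η) ∨
        (δ * V.1 = δ * Q.x1 ∧ (pp δ η Q V).1 = δ * V.1 - 128 * η))) ∨
    (δ * Q.x0 + δ ≤ δ * V.1 ∧ δ * V.1 + δ ≤ δ * Q.x1 ∧ (pp δ η Q V).1 = δ * V.1 ∧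
      ((δ * V.2 = δ * Q.y0 ∧ (pp δ η Q V).2 = δ * V.2 + 128 * η) ∨
        (δ * V.2 = δ * Q.y1 ∧ (pp δ η Q V).2 = δ * V.2 - 128 * η))) := by
  have hx := C.hx
  have hy := C.hy
  have t1 := mul_tri δ V.1 Q.x0
  have t2 := mul_tri δ V.1 Q.x1
  have t3 := mul_tri δ V.2 Q.y0
  have t4 := mul_tri δ V.2 Q.y1
  unfold NC at h
  simp only [pp]
  split_ifs <;> omega

theorem ll_pp (C : Ctx δ η Q) {e : Ed} {z V : ℤ × ℤ} (hV : NC Q V) (hl : LL δ η Q e z) :
    ¬ nr (pp δ η Q V) (10 * η) z := by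
  have t1 := mul_tri δ V.1 e.2.2
  have t2 := mul_tri δ V.2 e.2.2
  have := C.X
  have := C.Y
  have := C.del
  have := C.eta
  have c := hV.cases C
  generalize pp δ η Q V = p at c ⊢
  rcases e with ⟨_ | _, _ | _, k⟩ <;>
    simp only [LL, Ln, nr, eU, eD, Bool.false_eq_true, if_false, if_true] at hl t1 t2 ⊢ <;> omega

theorem pp_nr {V z : ℤ × ℤ} {r : ℤ} (h : nr (pp δ η Q V) r z) : nr (vt δ V) (r + 128 * η) z := by
  simp only [nr, pp, vt] at h ⊢
  split_ifs at h <;> omega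

/-- boundary vertices next to a point of the rectangle -/
theorem side_bd (C : Ctx δ η Q) {z : ℤ × ℤ} (hz : (Q.sc δ).mem z) (a : ℤ) (ha : a = 0 ∨ a = 1) :
    (Q.x0, (cl δ z).2 + a) ∈ bd Q ∧ (Q.x1, (cl δ z).2 + a) ∈ bd Q ∧
      ((cl δ z).1 + a, Q.y0) ∈ bd Q ∧ ((cl δ z).1 + a, Q.y1) ∈ bd Q := by
  have := (mem_cl C.pos Q z).2 hz
  have := C.hx
  have := C.hy
  simp only [mem_bd, Cls, Ins, Rect.mem] at *
  omega

theorem exists_bd (C : Ctx δ η Q) {z : ℤ × ℤ} (hz : (Q.sc δ).mem z) :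
    ∃ V ∈ bd Q, sd z (vt δ V) ≤ max (dep (Q.sc δ) z + 1) δ := by
  obtain ⟨s1, s2, s3, s4⟩ := side_bd C hz 0 (Or.inl rfl)
  have hs := cl_spec C.pos z
  simp only [Rect.mem, Rect.sc] at hz
  have d : dep (Q.sc δ) z = z.1 - δ * Q.x0 ∨ dep (Q.sc δ) z = δ * Q.x1 - 1 - z.1 ∨
      dep (Q.sc δ) z = z.2 - δ * Q.y0 ∨ dep (Q.sc δ) z = δ * Q.y1 - 1 - z.2 := by
    simp only [dep, Rect.sc]; omega
  rcases d with d | d | d | d
  · exact ⟨_, s1, by rw [sd_le_iff]; simp only [vt, add_zero]; omega⟩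
  · exact ⟨_, s2, by rw [sd_le_iff]; simp only [vt, add_zero]; omega⟩
  · exact ⟨_, s3, by rw [sd_le_iff]; simp only [vt, add_zero]; omega⟩
  · exact ⟨_, s4, by rw [sd_le_iff]; simp only [vt, add_zero]; omega⟩

/-- the lenses cover the shallow part away from the apexes -/
theorem cover (C : Ctx δ η Q) {z : ℤ × ℤ} (hz : (Q.sc δ).mem z) {g : ℤ}
    (hg : ∀ V ∈ bd Q, g ≤ sd z (vt δ V)) (hb : 128 * η ≤ g)
    (hd : 10 * (dep (Q.sc δ) z + 1) < 2 * g) : ∃ e ∈ edges Q, LL δ η Q e z := by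
  obtain ⟨s1, s2, s3, s4⟩ := side_bd C hz 0 (Or.inl rfl)
  obtain ⟨u1, u2, u3, u4⟩ := side_bd C hz 1 (Or.inr rfl)
  have hs := cl_spec C.pos z
  have hm := (mem_cl C.pos Q z).2 hz
  simp only [Rect.mem, Rect.sc] at hz hm
  have d : dep (Q.sc δ) z = z.1 - δ * Q.x0 ∨ dep (Q.sc δ) z = δ * Q.x1 - 1 - z.1 ∨
      dep (Q.sc δ) z = z.2 - δ * Q.y0 ∨ dep (Q.sc δ) z = δ * Q.y1 - 1 - z.2 := by
    simp only [dep, Rect.sc]; omega
  rcases d with d | d | d | d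
  · refine ⟨(true, false, (cl δ z).2), mem_edges.2 (by simp only [eOK, if_true]; omega), ?_⟩
    have a := hg _ s1
    have b := hg _ u1
    simp only [sd, vt, add_zero, mul_add, mul_one, abs_eq_max_neg] at a b
    simp only [LL, Ln, eU, eD, Bool.false_eq_true, if_false, if_true]
    omega
  · refine ⟨(true, true, (cl δ z).2), mem_edges.2 (by simp only [eOK, if_true]; omega), ?_⟩
    have a := hg _ s2
    have b := hg _ u2
    simp only [sd, vt, add_zero, mul_add, mul_one, abs_eq_max_neg] at a b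
    simp only [LL, Ln, eU, eD, if_true]
    omega
  · refine ⟨(false, false, (cl δ z).1),
      mem_edges.2 (by simp only [eOK, Bool.false_eq_true, if_false]; omega), ?_⟩
    have a := hg _ s3
    have b := hg _ u3
    simp only [sd, vt, add_zero, mul_add, mul_one, abs_eq_max_neg] at a b
    simp only [LL, Ln, eU, eD, Bool.false_eq_true, if_false]
    omega
  · refine ⟨(false, true, (cl δ z).1),
      mem_edges.2 (by simp only [eOK, Bool.false_eq_true, if_false]; omega), ?_⟩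
    have a := hg _ s4
    have b := hg _ u4
    simp only [sd, vt, add_zero, mul_add, mul_one, abs_eq_max_neg] at a b
    simp only [LL, Ln, eU, eD, Bool.false_eq_true, if_false, if_true]
    omega

theorem nc_of_not_two {Cl : Type} {κ : ℤ × ℤ → Cl} {c : Cl} (C : Ctx δ η Q) (hg : Gen κ Q)
    (hc : ∀ X, Q.ext.mem X → κ X ≠ c) {V : ℤ × ℤ} (hV : V ∈ bd Q) (h : ¬ Two (paint κ Q c) V) :
    NC Q V := by
  obtain ⟨h1, h2⟩ := mem_bd.1 hV
  have : ∃ X, Quad V X ∧ κ V ≠ κ X := by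
    by_contra hn
    push Not at hn
    refine h ⟨(c, κ V), fun X hX => ?_⟩
    unfold paint
    split_ifs
    · exact Or.inl rfl
    · exact Or.inr (hn X hX).symm
  obtain ⟨X, hX, hne⟩ := this
  have := (hg.stem hc (by have := C.hx; omega) (by have := C.hy; omega) h1 h2 (quad_self V) hX
    hne).2
  unfold NC
  omega

end Crest.Agent.N336.P.Geo.Mac
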