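import Crest.Agent.N336.P.Geo.Sched0

/-!
# Row 336, painter schedule: `SchedStmt` (helper32)
-/

set_option autoImplicit false

namespace Crest.Agent.N336.P.Geo

open Crest.MathPhysics.LatticeSpin

namespace Sch

theorem del_pos (i : ℕ) : 0 < del i := by unfold del; positivity

theorem del_succ (i : ℕ) : del (i + 1) = 2 * del i := by unfold del; ring

theorem amax_lt (L i : ℕ) : amax L i < L + 2 := by
  unfold amax
  have := Nat.div_le_self L (32 * del i)
  omega

theorem amax_succ (L i : ℕ) : amax L (i + 1) = (amax L i - 1) / 2 + 1 := by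
  unfold amax
  rw [del_succ, Nat.add_sub_cancel, Nat.div_div_eq_div_mul]
  congr 2
  ring

theorem top_lt {L top : ℕ} (h : 32 * del top ≤ L) : top < L := by
  unfold del at h
  have := Nat.lt_two_pow_self (n := top)
  omega

theorem pty_eq {L i a b : ℕ} (hi : i < L + 2) (ha : a < L + 2) (hb : b < L + 2) :
    pty L i a b = some (⟨i, hi⟩, ⟨a, ha⟩, ⟨b, hb⟩) := by
  unfold pty
  rw [dif_pos ⟨hi, by simpa using ha, by simpa using hb, by positivity, by positivity⟩]
  simp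

/-- The colours of generation `i`. -/
def NewG (L i : ℕ) (p : Pty L) : Prop :=
  ∃ q : Fin (L + 2) × Fin (L + 2) × Fin (L + 2), p = some q ∧ q.1.1 = i

/-- The squares of generation `i`. -/
def SQ (L i : ℕ) : Finset (ℕ × ℕ) := Finset.range (amax L i + 1) ×ˢ Finset.range (amax L i + 1)

theorem mem_SQ {L i : ℕ} {q : ℕ × ℕ} : q ∈ SQ L i ↔ q.1 ≤ amax L i ∧ q.2 ≤ amax L i := by
  simp [SQ]

/-- The colour of a square. -/
def colr (L i : ℕ) (q : ℕ × ℕ) : Pty L := pty L i q.1 q.2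

theorem colr_eq {L i : ℕ} (hi : i < L + 2) {q : ℕ × ℕ} (hq : q ∈ SQ L i) :
    colr L i q = some (⟨i, hi⟩, ⟨q.1, (mem_SQ.1 hq).1.trans_lt (amax_lt L i)⟩,
      ⟨q.2, (mem_SQ.1 hq).2.trans_lt (amax_lt L i)⟩) := pty_eq _ _ _

theorem newG_colr {L i j : ℕ} (hi : i < L + 2) {q : ℕ × ℕ} (hq : q ∈ SQ L i) :
    NewG L j (colr L i q) ↔ i = j := by
  rw [colr_eq hi hq]
  constructor
  · rintro ⟨q, e, rfl⟩
    rw [Option.some_inj] at e
    rw [← e]
  · rintro rfl
    exact ⟨_, rfl, rfl⟩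

theorem colr_inj {L i : ℕ} (hi : i < L + 2) {q q' : ℕ × ℕ} (hq : q ∈ SQ L i) (hq' : q' ∈ SQ L i)
    (h : colr L i q = colr L i q') : q = q' := by
  rw [colr_eq hi hq, colr_eq hi hq'] at h
  simp only [Option.some_inj, Prod.mk.injEq, Fin.mk.injEq, true_and] at h
  exact Prod.ext h.1 h.2

theorem nb_same {L top i : ℕ} (f : Bool) (hi : i < L + 2) {q q' : ℕ × ℕ} (hq' : q' ∈ SQ L i)
    (h1 : q.1 ≤ q'.1 + 1) (h2 : q'.1 ≤ q.1 + 1) (h3 : q.2 ≤ q'.2 + 1) (h4 : q'.2 ≤ q.2 + 1) :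
    colr L i q' ∈ NbI L top (f, i, q.1, q.2) := by
  rw [colr_eq hi hq']
  simp only [NbI, Finset.mem_filter, Finset.mem_univ, true_and]
  exact ⟨(mem_SQ.1 hq').1, (mem_SQ.1 hq').2, Or.inl ⟨h2, h1, h4, h3⟩⟩

theorem nb_up {L top i : ℕ} (f : Bool) (hi : i + 1 < L + 2) (ht : i + 1 ≤ top) {q q' : ℕ × ℕ}
    (hq' : q' ∈ SQ L (i + 1)) (h1 : q.1 / 2 ≤ q'.1 + 1) (h2 : q'.1 ≤ q.1 / 2 + 1)
    (h3 : q.2 / 2 ≤ q'.2 + 1) (h4 : q'.2 ≤ q.2 / 2 + 1) :
    colr L (i + 1) q' ∈ NbI L top (f, i, q.1, q.2) := by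
  rw [colr_eq hi hq']
  simp only [NbI, Finset.mem_filter, Finset.mem_univ, true_and]
  exact ⟨(mem_SQ.1 hq').1, (mem_SQ.1 hq').2, Or.inr ⟨ht, h2, h1, h4, h3⟩⟩

theorem nb_root {L top : ℕ} (f : Bool) (q : ℕ × ℕ) : none ∈ NbI L top (f, top, q.1, q.2) := by
  simp [NbI]

/-- The region covered by the squares of generation `i`. -/
def Cov (L i : ℕ) (X : ℤ × ℤ) : Prop :=
  -17 ≤ X.1 ∧ X.1 < 32 * amax L i + 17 ∧ -17 ≤ X.2 ∧ X.2 < 32 * amax L i + 17

theorem cov_ex {L i : ℕ} {X : ℤ × ℤ} (h : Cov L i X) : ∃ q ∈ SQ L i, (sqr q.1 q.2).mem X := by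
  refine ⟨(min (amax L i) ((X.1 + 16) / 32).toNat, min (amax L i) ((X.2 + 16) / 32).toNat),
    mem_SQ.2 ⟨min_le_left _ _, min_le_left _ _⟩, ?_⟩
  unfold Cov at h
  have h1 := cls_bd (min (amax L i) ((X.1 + 16) / 32).toNat : ℕ)
    (min (amax L i) ((X.2 + 16) / 32).toNat : ℕ)
  simp only [Rect.mem, sqr]
  generalize cls _ _ = t at h1 ⊢
  omega

theorem site_cell (L i : ℕ) (z : Fin L × Fin L) :
    0 ≤ (cl (del i) (gpos L z)).1 ∧ (cl (del i) (gpos L z)).1 < 32 * amax L i ∧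
      0 ≤ (cl (del i) (gpos L z)).2 ∧ (cl (del i) (gpos L z)).2 < 32 * amax L i := by
  have key : ∀ x : ℕ, x < L → x / del i < 32 * amax L i := by
    intro x hx
    have h1 : x / del i ≤ L / del i := Nat.div_le_div_right hx.le
    have h2 : L / (32 * del i) = L / del i / 32 := by
      rw [Nat.div_div_eq_div_mul, mul_comm]
    unfold amax
    omega
  have h1 := key z.1 z.1.2
  have h2 := key z.2 z.2.2
  simp only [cl, gpos, ← Int.natCast_div]
  generalize z.1.1 / del i = a at h1 ⊢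
  generalize z.2.1 / del i = b at h2 ⊢
  omega

theorem cov_quad {L i : ℕ} {z : Fin L × Fin L} {V X : ℤ × ℤ}
    (h : Quad V (cl (del i) (gpos L z))) (hX : Quad V X) : Cov L i X := by
  have := site_cell L i z
  unfold Quad at h hX
  unfold Cov
  omega

theorem cov_site (L i : ℕ) (z : Fin L × Fin L) : Cov L i (cl (del i) (gpos L z)) :=
  cov_quad (V := cl (del i) (gpos L z)) ⟨Or.inl rfl, Or.inl rfl⟩ ⟨Or.inl rfl, Or.inl rfl⟩

/-- The colouring at the end of generation `i`. -/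
def Full (L i : ℕ) (κ : ℤ × ℤ → Pty L) : Prop :=
  (∀ X, Cov L i X → ∃ q ∈ SQ L i, κ X = colr L i q ∧ (sqr q.1 q.2).mem X) ∧
  ∀ A B, Cov L i B → κ A ≠ κ B → ∃ q : ℕ × ℕ, ¬ ((sqr q.1 q.2).mem A ↔ (sqr q.1 q.2).mem B)

theorem full_of_inv {L i : ℕ} {base κ : ℤ × ℤ → Pty L} (h : Inv (colr L i) base (SQ L i) κ) :
    Full L i κ := by
  refine ⟨fun X hX => ?_, fun A B hB hne => ?_⟩
  · rcases h.1 X with h1 | ⟨-, h1⟩
    · exact h1
    · obtain ⟨q, hq, hm⟩ := cov_ex hX
      exact (h1 q hq hm).elim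
  · rcases h.2 A B hne with ⟨q, -, h1⟩ | ⟨h1, -⟩
    · exact ⟨q, h1⟩
    · obtain ⟨q, hq, hm⟩ := cov_ex hB
      exact (h1 q hq hm).elim

theorem cov_half {L i : ℕ} {q : ℕ × ℕ} (hq : q ∈ SQ L i) {X : ℤ × ℤ} (hX : Fr q X) :
    Cov L (i + 1) (half X) := by
  rw [mem_SQ] at hq
  have h1 := cls_bd q.1 q.2
  have h2 := amax_succ L i
  have h3 : 1 ≤ amax L i := Nat.le_add_left _ _
  simp only [Fr, Rect.mem, sqr] at hX
  simp only [Cov, half]
  generalize cls _ _ = t at h1 hX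
  omega

theorem gen_half {L i : ℕ} {κ : ℤ × ℤ → Pty L} (h : Full L (i + 1) κ) {q : ℕ × ℕ}
    (hq : q ∈ SQ L i) : Gen (fun X => κ (half X)) (sqr q.1 q.2) := by
  have h1 := cls_bd q.1 q.2
  refine ⟨fun X Y hX g1 g2 => ?_, fun X Y hY g1 g2 => ?_⟩
  · by_contra hne
    have hc : Cov L (i + 1) (half (X, Y)) := cov_half hq (by
      simp only [Fr, Rect.mem, sqr] at hX g1 g2 ⊢
      omega)
    obtain ⟨q', hq'⟩ := h.2 _ _ hc hne
    by_cases hx : (X - 1) / 2 = X / 2
    · exact hne (by simp only [half, hx])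
    · have e : half (X - 1, Y) = (X / 2 - 1, Y / 2) := by
        refine Prod.ext ?_ rfl
        simp only [half]
        omega
      rw [e] at hq'
      have h2 := (edge_h (X := X / 2) (Y := Y / 2) hq').1
      have h3 := cls_bd q'.1 q'.2
      simp only [sqr] at hX h2
      omega
  · by_contra hne
    have hc : Cov L (i + 1) (half (X, Y)) := cov_half hq (by
      simp only [Fr, Rect.mem, sqr] at hY g1 g2 ⊢
      omega)
    obtain ⟨q', hq'⟩ := h.2 _ _ hc hne
    by_cases hy : (Y - 1) / 2 = Y / 2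
    · exact hne (by simp only [half, hy])
    · have e : half (X, Y - 1) = (X / 2, Y / 2 - 1) := by
        refine Prod.ext rfl ?_
        simp only [half]
        omega
      rw [e] at hq'
      have h2 := (edge_v (X := X / 2) (Y := Y / 2) hq').1
      have h3 := cls_bd q'.1 q'.2
      simp only [sqr] at hY h2
      omega

theorem base_half {L top i : ℕ} (hi : i + 1 < L + 2) (ht : i + 1 ≤ top) {κ : ℤ × ℤ → Pty L}
    (h : Full L (i + 1) κ) {q : ℕ × ℕ} (hq : q ∈ SQ L i) {X : ℤ × ℤ} (hX : Fr q X) :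
    ¬ NewG L i (κ (half X)) ∧ κ (half X) ∈ NbI L top (false, i, q.1, q.2) := by
  obtain ⟨q', hq', e, hm⟩ := h.1 _ (cov_half hq hX)
  rw [e]
  refine ⟨fun hn => by have := (newG_colr hi hq').1 hn; omega, ?_⟩
  have h1 := cls_bd q.1 q.2
  have h2 := cls_bd q'.1 q'.2
  simp only [Fr, Rect.mem, sqr, half] at hX hm
  exact nb_up false hi ht hq' (by omega) (by omega) (by omega) (by omega)

theorem mem_BS {L top i : ℕ} (f : Bool) (hi : i ≤ top) (hf : f = true → i = 0) {q : ℕ × ℕ}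
    (hq : q ∈ SQ L i) : (f, i, q.1, q.2) ∈ BS L top := by
  rw [mem_SQ] at hq
  have := amax_lt L i
  simp only [BS, Finset.mem_filter, Finset.mem_product, Finset.mem_univ, Finset.mem_range, true_and]
  exact ⟨⟨by omega, by omega, by omega⟩, hq.1, hq.2, hf⟩

theorem unit_le (i i₁ : ℕ) : 14 * 2 ^ min i i₁ ≤ del i := by
  have : 2 ^ min i i₁ ≤ 2 ^ i := Nat.pow_le_pow_right (by norm_num) (min_le_left _ _)
  unfold del
  omega

/-- One generation of the schedule. -/
theorem gen_step {L top i₁ : ℕ} {Ex Pt : Finset (Fin L × Fin L) → Finset (Fin L × Fin L) → Prop}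
    {i : ℕ} (hi : i < L + 2) (ht : i ≤ top)
    (hP : PaintSpec (Cl := Pty L) (gpos L) Ex Pt (del i) (2 ^ min i i₁))
    (base : ℤ × ℤ → Pty L)
    (hb : ∀ q ∈ SQ L i, Gen base (sqr q.1 q.2) ∧
      ∀ X, Fr q X → ¬ NewG L i (base X) ∧ base X ∈ NbI L top (false, i, q.1, q.2))
    (s : CSt (Fin L × Fin L) (Pty L)) (hs : Rep (gpos L) (del i) (2 ^ min i i₁) (NewG L i) base s) :
    ∃ (l : List Blk) (κ : ℤ × ℤ → Pty L) (s' : CSt (Fin L × Fin L) (Pty L)), l.Nodup ∧
      (∀ b ∈ l, b ∈ BS L top ∧ b.1 = false ∧ b.2.1 = i) ∧ Blocks Ex Pt (NbI L top) l s s' ∧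
      Rep (gpos L) (del i) (2 ^ min i i₁) (NewG L i) κ s' ∧ Full L i κ := by
  obtain ⟨l, κ, s', h1, h2, h3, h4, h5⟩ := paint_all hP (NewG L i) (colr L i) base
    (fun q => ((false, i, q.1, q.2) : Blk))
    (fun q q' h => by
      simp only [Prod.mk.injEq, true_and] at h
      exact Prod.ext h.1 h.2)
    (NbI L top) (SQ L i) (fun q hq => (newG_colr hi hq).2 rfl)
    (fun q hq q' hq' h => colr_inj hi hq hq' h)
    (fun q _ q' hq' g1 g2 g3 g4 => nb_same false hi hq' g1 g2 g3 g4) hb s hs (SQ L i) subset_rfl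
  refine ⟨l, κ, s', h1, fun b hb => ?_, h3, h4, full_of_inv h5⟩
  obtain ⟨q, hq, rfl⟩ := h2 b hb
  exact ⟨mem_BS false ht (by simp) hq, rfl, rfl⟩

/-- All the generations from `top` down to `i`. -/
theorem gens {L top i₁ : ℕ} {Ex Pt : Finset (Fin L × Fin L) → Finset (Fin L × Fin L) → Prop}
    (hL : 32 * del top ≤ L)
    (hP : ∀ i ≤ top, PaintSpec (Cl := Pty L) (gpos L) Ex Pt (del i) (2 ^ min i i₁)) (k : ℕ) :
    ∀ i, i + k = top →
    ∃ (l : List Blk) (κ : ℤ × ℤ → Pty L) (s' : CSt (Fin L × Fin L) (Pty L)), l.Nodup ∧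
      (∀ b ∈ l, b ∈ BS L top ∧ b.1 = false ∧ i ≤ b.2.1) ∧
      Blocks Ex Pt (NbI L top) l ⟨fun _ => none, ∅⟩ s' ∧
      Rep (gpos L) (del i) (2 ^ min i i₁) (NewG L i) κ s' ∧ Full L i κ := by
  have htop := top_lt hL
  induction k with
  | zero =>
    intro i hi
    obtain rfl : i = top := by omega
    obtain ⟨l, κ, s', h1, h2, h3, h4, h5⟩ := gen_step (top := i) (by omega) le_rfl (hP i le_rfl)
      (fun _ => none)
      (fun q _ => ⟨⟨fun _ _ _ _ _ => rfl, fun _ _ _ _ _ => rfl⟩,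
        fun X _ => ⟨by rintro ⟨q, h, -⟩; simp at h, nb_root false q⟩⟩)
      ⟨fun _ => none, ∅⟩
      ⟨fun _ => rfl, ∅, by simp, by simp, by simp,
        fun V _ => Or.inl ⟨(none, none), fun _ _ => Or.inl rfl⟩⟩
    exact ⟨l, κ, s', h1, fun b hb => ⟨(h2 b hb).1, (h2 b hb).2.1, (h2 b hb).2.2.ge⟩, h3, h4, h5⟩
  | succ k ih =>
    intro i hi
    obtain ⟨l, κ, s, h1, h2, h3, h4, h5⟩ := ih (i + 1) (by omega)
    have hi1 : i + 1 < L + 2 := by omega
    have hrep : Rep (gpos L) (del i) (2 ^ min i i₁) (NewG L i) (fun X => κ (half X)) s := by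
      have hu := unit_le (i + 1) i₁
      rw [del_succ] at h4 hu
      refine rep_half (del_pos i) h4 ?_ hu (fun z => ?_) fun z V X g1 g2 => ?_
      · rcases le_or_gt i₁ i with h | h
        · left
          rw [min_eq_right h, min_eq_right (by omega)]
        · right
          rw [min_eq_left h, min_eq_left h.le, pow_succ, mul_comm]
      · rw [← del_succ]
        obtain ⟨q, hq, e, -⟩ := h5.1 _ (cov_site L (i + 1) z)
        rw [e]
        exact (newG_colr hi1 hq).2 rfl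
      · rw [← del_succ] at g1
        obtain ⟨q, hq, e, -⟩ := h5.1 _ (cov_quad g1 g2)
        rw [e]
        intro hn
        have := (newG_colr hi1 hq).1 hn
        omega
    obtain ⟨l', κ', s', g1, g2, g3, g4, g5⟩ := gen_step (top := top) (by omega) (by omega)
      (hP i (by omega)) _ (fun q hq => ⟨gen_half h5 hq, fun X hX =>
        base_half hi1 (by omega) h5 hq hX⟩) s hrep
    refine ⟨l ++ l', κ', s', ?_, fun b hb => ?_, blocks_append h3 g3, g4, g5⟩
    · rw [List.nodup_append]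
      refine ⟨h1, g1, fun a ha b hb hab => ?_⟩
      have e1 := (h2 a ha).2.2
      have e2 := (g2 b hb).2.2
      rw [hab] at e1
      omega
    · rcases List.mem_append.1 hb with hb | hb
      · exact ⟨(h2 b hb).1, (h2 b hb).2.1, by have := (h2 b hb).2.2; omega⟩
      · exact ⟨(g2 b hb).1, (g2 b hb).2.1, (g2 b hb).2.2.ge⟩

theorem gpos_inj (L : ℕ) : Function.Injective (gpos L) := by
  intro z w h
  simp only [gpos, Prod.mk.injEq, Nat.cast_inj] at h
  exact Prod.ext (Fin.ext h.1) (Fin.ext h.2)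

end Sch

open Sch in
theorem sched : SchedStmt := by
  intro L top i₁ Ex Pt hL _ hP
  have htop := top_lt hL
  have h0 : 0 < L + 2 := by omega
  obtain ⟨l, κ, s, h1, h2, h3, ⟨h4, HA, h5, h6, h7, -⟩, h8⟩ := gens hL hP top 0 (by omega)
  obtain ⟨col, H⟩ := s
  dsimp only at h4 h5
  subst h5
  have hu : 2 ^ min 0 i₁ = 1 := by simp
  rw [hu] at h6
  have hd : del 0 = 256 := rfl
  -- the holes
  have hhole : ∀ h ∈ HA, h.e = 1 ∧ ∃ V : ℤ × ℤ, h.v = ((del 0 : ℤ) * V.1, (del 0 : ℤ) * V.2) ∧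
      (∀ X, Quad V X → Cov L 0 X) ∧
      ∃ X, Quad V X ∧ ∃ q ∈ SQ L 0, h.tg = colr L 0 q ∧ (sqr q.1 q.2).mem X := by
    intro h hh
    obtain ⟨hne, V, hV, -, ⟨X, hX, hXt⟩, he⟩ := h6 h hh
    have he1 : h.e = 1 := rep_unit (New := NewG L 0) (del_pos 0) (by rw [hd]; norm_num) (fun z => by
      obtain ⟨q, hq, e, -⟩ := h8.1 _ (cov_site L 0 z)
      rw [e]
      exact (newG_colr h0 hq).2 rfl) hne hV he
    obtain ⟨z, hz⟩ := hne
    have hz' : z ∈ bx (gpos L) ((del 0 : ℤ) * V.1, (del 0 : ℤ) * V.2) (7 * h.e) := hV ▸ hz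
    have hq := quad_cl (del_pos 0) (by rw [he1, hd]; norm_num) hz'
    refine ⟨he1, V, hV, fun Y hY => cov_quad hq hY, X, hX, ?_⟩
    obtain ⟨q, hq, e, hm⟩ := h8.1 _ (cov_quad hq hX)
    exact ⟨q, hq, hXt ▸ e, hm⟩
  let blk : ℕ × ℕ → Blk := fun q => (true, 0, q.1, q.2)
  have hdec : Blocks Ex Pt (NbI L top) ((SQ L 0).toList.map blk)
      ⟨col, HA.image (HD.hole (gpos L))⟩ ⟨col, ∅⟩ := by
    refine blocks_decode Ex Pt (NbI L top) (fun b => colr L 0 b.2.2) col _ _ (fun b hb => ?_)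
      fun v hv => ?_
    · obtain ⟨q, hq, rfl⟩ := List.mem_map.1 hb
      rw [Finset.mem_toList] at hq
      have hc := cls_bd q.1 q.2
      refine ⟨?_, fun v hv ht => ?_⟩
      · have e1 : ((HA.image (HD.hole (gpos L))).filter fun v => v.tg = colr L 0 (blk q).2.2) ⊆
            (HA.filter fun h => h.tg = colr L 0 q).image (HD.hole (gpos L)) := by
          intro v hv
          rw [Finset.mem_filter, Finset.mem_image] at hv
          obtain ⟨⟨h, hh, rfl⟩, ht⟩ := hv
          exact Finset.mem_image.2 ⟨h, Finset.mem_filter.2 ⟨hh, ht⟩, rfl⟩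
        refine (Finset.card_le_card e1).trans (Finset.card_image_le.trans ?_)
        have e2 : (HA.filter fun h => h.tg = colr L 0 q).card ≤
            (Finset.Ico (256 * (32 * (q.1 : ℤ) - 21)) (256 * (32 * (q.1 : ℤ) + 21)) ×ˢ
              Finset.Ico (256 * (32 * (q.2 : ℤ) - 21)) (256 * (32 * (q.2 : ℤ) + 21))).card := by
          refine Finset.card_le_card_of_injOn (fun h => h.v) (fun h hh => ?_) fun h hh h' hh' e => ?_
          · rw [Finset.mem_coe, Finset.mem_filter] at hh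
            obtain ⟨-, V, hV, -, X, hX, q', hq', e, hm⟩ := hhole h hh.1
            obtain rfl : q' = q := colr_inj h0 hq' hq (e.symm.trans hh.2)
            simp only [Finset.coe_product, Finset.coe_Ico, Set.mem_prod, Set.mem_Ico, hV, hd]
            simp only [Rect.mem, sqr, Quad] at hm hX
            push_cast
            omega
          · exact h7 h (Finset.mem_filter.1 hh).1 h' (Finset.mem_filter.1 hh').1 e
        rw [Finset.card_product, Int.card_Ico, Int.card_Ico] at e2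
        have e3 : ∀ a : ℤ, (256 * (32 * a + 21) - 256 * (32 * a - 21)).toNat = 10752 := by
          intro a
          omega
        rw [e3, e3] at e2
        exact e2.trans (by unfold K0; norm_num)
      · obtain ⟨h, hh, rfl⟩ := Finset.mem_image.1 hv
        obtain ⟨he, V, hV, hcov, X, hX, q', hq', e, hm⟩ := hhole h hh
        obtain rfl : q' = q := colr_inj h0 hq' hq (e.symm.trans ht)
        refine ⟨?_, ?_, fun z hz => ?_⟩
        · have := card_bx_le (gpos_inj L) h.v 7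
          simp only [HD.hole, he]
          refine le_trans (le_of_eq ?_) (this.trans (by unfold K0; norm_num))
          norm_num
        · change h.tg ∈ _
          rw [e]
          exact nb_same true h0 hq' (by omega) (by omega) (by omega) (by omega)
        · have hz' : z ∈ bx (gpos L) ((del 0 : ℤ) * V.1, (del 0 : ℤ) * V.2) (7 * h.e) := hV ▸ hz
          have hqz := quad_cl (del_pos 0) (by rw [he, hd]; norm_num) hz'
          obtain ⟨q'', hq'', e', hm'⟩ := h8.1 _ (hcov _ hqz)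
          rw [h4 z, e']
          have hc' := cls_bd q''.1 q''.2
          simp only [Rect.mem, sqr, Quad] at hm hm' hX hqz
          exact nb_same true h0 hq'' (by omega) (by omega) (by omega) (by omega)
    · obtain ⟨h, hh, rfl⟩ := Finset.mem_image.1 hv
      obtain ⟨-, V, -, -, X, -, q, hq, e, -⟩ := hhole h hh
      exact ⟨blk q, List.mem_map.2 ⟨q, Finset.mem_toList.2 hq, rfl⟩, e⟩
  refine ⟨l ++ (SQ L 0).toList.map blk, col, ?_, fun b hb => ?_, fun z => ?_, blocks_append h3 hdec⟩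
  · rw [List.nodup_append]
    refine ⟨h1, (Finset.nodup_toList _).map fun q q' h => ?_, fun a ha b hb hab => ?_⟩
    · simp only [blk, Prod.mk.injEq, true_and] at h
      exact Prod.ext h.1 h.2
    · obtain ⟨q, -, rfl⟩ := List.mem_map.1 hb
      have := (h2 a ha).2.1
      rw [hab] at this
      simp [blk] at this
  · rcases List.mem_append.1 hb with hb | hb
    · exact (h2 b hb).1
    · obtain ⟨q, hq, rfl⟩ := List.mem_map.1 hb
      exact mem_BS true (Nat.zero_le _) (fun _ => rfl) (Finset.mem_toList.1 hq)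
  · obtain ⟨q, hq, e, hm⟩ := h8.1 _ (cov_site L 0 z)
    exact ⟨q.1, q.2, (mem_SQ.1 hq).1, (mem_SQ.1 hq).2, (h4 z).trans e, hm⟩

end Crest.Agent.N336.P.Geo
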