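import Crest.Agent.N336.P.Geo.Rect

/-!
# Row 336, painter schedule: generic lemmas for the schedule (helper32)

Concatenation of blocks, final decoding, change of generation, painting a family of squares.
-/

set_option autoImplicit false
set_option linter.unusedSectionVars false

namespace Crest.Agent.N336.P.Geo.Sch

open Crest.MathPhysics.LatticeSpin

section generic

variable {Λ Cl : Type} [Fintype Λ] [DecidableEq Λ] [DecidableEq Cl]

theorem blocks_append {β : Type} {Ex Pt : Finset Λ → Finset Λ → Prop} {I : β → Finset Cl}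
    {l l' : List β} {s s₁ s' : CSt Λ Cl} (h : Blocks Ex Pt I l s s₁)
    (h' : Blocks Ex Pt I l' s₁ s') : Blocks Ex Pt I (l ++ l') s s' := by
  induction h with
  | nil s => exact h'
  | cons hm hs _ ih => exact Blocks.cons hm hs (ih h')

theorem seg_decode (Ex Pt : Finset Λ → Finset Λ → Prop) (I : Finset Cl) (col : Λ → Cl)
    (T : Finset (Hole Λ Cl)) : ∀ H : Finset (Hole Λ Cl), T ⊆ H →
    (∀ v ∈ T, v.O.card ≤ K0 ∧ v.tg ∈ I ∧ ∀ z ∈ v.O, col z ∈ I) →
    Seg Ex Pt I T.card ⟨col, H⟩ ⟨col, H \ T⟩ := by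
  induction T using Finset.induction_on with
  | empty => intro H _ _; simpa using Seg.nil _
  | insert v T hv ih =>
    intro H hH hg
    rw [Finset.card_insert_of_notMem hv]
    have hvH : v ∈ H := hH (Finset.mem_insert_self _ _)
    obtain ⟨h1, h2, h3⟩ := hg v (Finset.mem_insert_self _ _)
    refine Seg.cons (s₁ := ⟨col, H.erase v⟩) (Or.inr (Or.inr ⟨v, hvH, h1, h2, h3, rfl, rfl⟩)) ?_
    have e : H \ insert v T = H.erase v \ T := by
      ext w
      simp only [Finset.mem_sdiff, Finset.mem_insert, Finset.mem_erase]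
      tauto
    rw [e]
    refine ih _ (fun w hw => Finset.mem_erase.2 ⟨?_, hH (Finset.mem_insert_of_mem hw)⟩)
      fun w hw => hg w (Finset.mem_insert_of_mem hw)
    rintro rfl
    exact hv hw

theorem blocks_decode {β : Type} (Ex Pt : Finset Λ → Finset Λ → Prop) (I : β → Finset Cl)
    (tg : β → Cl) (col : Λ → Cl) (l : List β) : ∀ H : Finset (Hole Λ Cl),
    (∀ b ∈ l, (H.filter fun v => v.tg = tg b).card ≤ K0 ∧
      ∀ v ∈ H, v.tg = tg b → v.O.card ≤ K0 ∧ v.tg ∈ I b ∧ ∀ z ∈ v.O, col z ∈ I b) →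
    (∀ v ∈ H, ∃ b ∈ l, v.tg = tg b) → Blocks Ex Pt I l ⟨col, H⟩ ⟨col, ∅⟩ := by
  induction l with
  | nil =>
    intro H _ hall
    have : H = ∅ := Finset.eq_empty_of_forall_notMem fun v hv => by simpa using hall v hv
    rw [this]
    exact Blocks.nil _
  | cons b l ih =>
    intro H hg hall
    obtain ⟨h1, h2⟩ := hg b List.mem_cons_self
    refine Blocks.cons h1 (seg_decode Ex Pt (I b) col _ H (Finset.filter_subset _ _) fun v hv =>
      h2 v (Finset.mem_filter.1 hv).1 (Finset.mem_filter.1 hv).2) (ih _ (fun b' hb' => ?_) ?_)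
    · obtain ⟨h3, h4⟩ := hg b' (List.mem_cons_of_mem _ hb')
      exact ⟨(Finset.card_le_card (Finset.filter_subset_filter _ Finset.sdiff_subset)).trans h3,
        fun v hv => h4 v (Finset.mem_sdiff.1 hv).1⟩
    · intro v hv
      rw [Finset.mem_sdiff, Finset.mem_filter] at hv
      obtain ⟨b', hb', e⟩ := hall v hv.1
      rcases List.mem_cons.1 hb' with rfl | hb'
      · exact (hv.2 ⟨hv.1, e⟩).elim
      · exact ⟨b', hb', e⟩

/-- Sites near a vertex lie in the four cells around it. -/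
theorem quad_cl {pos : Λ → ℤ × ℤ} {δ : ℕ} (hδ : 0 < δ) {V : ℤ × ℤ} {r : ℤ} (hr : r ≤ δ) {z : Λ}
    (hz : z ∈ bx pos (δ * V.1, δ * V.2) r) : Quad V (cl δ (pos z)) := by
  rw [mem_bx] at hz
  have hpos : (0 : ℤ) < δ := by exact_mod_cast hδ
  dsimp only at hz
  have h1 : V.1 - 1 ≤ (pos z).1 / δ := Int.le_ediv_of_mul_le hpos (by linarith)
  have h2 : (pos z).1 / δ < V.1 + 1 := Int.ediv_lt_of_lt_mul hpos (by linarith)
  have h3 : V.2 - 1 ≤ (pos z).2 / δ := Int.le_ediv_of_mul_le hpos (by linarith)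
  have h4 : (pos z).2 / δ < V.2 + 1 := Int.ediv_lt_of_lt_mul hpos (by linarith)
  unfold Quad cl
  dsimp only
  omega

/-- The parent cell. -/
def half (X : ℤ × ℤ) : ℤ × ℤ := (X.1 / 2, X.2 / 2)

theorem cl_two (δ : ℕ) (z : ℤ × ℤ) : cl (2 * δ) z = half (cl δ z) := by
  unfold cl half
  dsimp only
  rw [Int.ediv_ediv_of_nonneg (by positivity), Int.ediv_ediv_of_nonneg (by positivity)]
  push_cast
  rw [mul_comm (δ : ℤ) 2]

theorem quad_half {V X : ℤ × ℤ} (h : Quad (2 * V.1, 2 * V.2) X) : Quad V (half X) := by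
  unfold Quad half at *
  dsimp only at *
  omega

theorem quad_lift {V X : ℤ × ℤ} (h : Quad V X) :
    ∃ X', Quad (2 * V.1, 2 * V.2) X' ∧ half X' = X := by
  refine ⟨(V.1 + X.1, V.2 + X.2), ?_, ?_⟩
  · unfold Quad at *
    dsimp only
    omega
  · unfold Quad half at *
    refine Prod.ext ?_ ?_ <;> dsimp only <;> omega

omit [DecidableEq Cl] in
theorem occ_half {κ : ℤ × ℤ → Cl} {V : ℤ × ℤ} {p : Cl} :
    Occ (fun X => κ (half X)) (2 * V.1, 2 * V.2) p ↔ Occ κ V p := by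
  constructor
  · rintro ⟨X, hX, rfl⟩
    exact ⟨half X, quad_half hX, rfl⟩
  · rintro ⟨X, hX, rfl⟩
    obtain ⟨X', h1, rfl⟩ := quad_lift hX
    exact ⟨X', h1, rfl⟩

omit [DecidableEq Cl] in
theorem two_half {κ : ℤ × ℤ → Cl} {V : ℤ × ℤ} :
    Two (fun X => κ (half X)) (2 * V.1, 2 * V.2) ↔ Two κ V := by
  constructor
  · rintro ⟨P, hP⟩
    refine ⟨P, fun X hX => ?_⟩
    obtain ⟨X', h1, rfl⟩ := quad_lift hX
    exact hP X' h1
  · rintro ⟨P, hP⟩
    exact ⟨P, fun X hX => hP _ (quad_half hX)⟩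

omit [DecidableEq Cl] in
theorem three_half {κ : ℤ × ℤ → Cl} {V : ℤ × ℤ} (h : Three κ V) :
    Three (fun X => κ (half X)) (2 * V.1, 2 * V.2) := by
  obtain ⟨h1, y, P, h2, h3, h4, h5⟩ := h
  exact ⟨fun h => h1 (two_half.1 h), y, P, occ_half.2 h2, occ_half.2 h3, occ_half.2 h4,
    fun X hX => h5 _ (quad_half hX)⟩

/-- When every site cell has a new colour, all the holes have the current unit. -/
theorem rep_unit {pos : Λ → ℤ × ℤ} {δ η : ℕ} {New : Cl → Prop} {κ : ℤ × ℤ → Cl}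
    (hδ : 0 < δ) (hη : 14 * η ≤ δ) (hnew : ∀ z, New (κ (cl δ (pos z)))) {h : HD Cl} {V : ℤ × ℤ}
    (hne : (h.hole pos).O.Nonempty) (hV : h.v = (δ * V.1, δ * V.2))
    (he : h.e = η ∨ (h.e = 2 * η ∧ ∀ p, Occ κ V p → ¬ New p)) : h.e = η := by
  rcases he with he | ⟨he, hn⟩
  · exact he
  · obtain ⟨z, hz⟩ := hne
    have hz' : z ∈ bx pos (δ * V.1, δ * V.2) (7 * h.e) := hV ▸ hz
    exact (hn _ ⟨_, quad_cl hδ (by rw [he]; push_cast; omega) hz', rfl⟩ (hnew z)).elim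

/-- Change of generation. -/
theorem rep_half {pos : Λ → ℤ × ℤ} {δ η η' : ℕ} {New New' : Cl → Prop} {κ : ℤ × ℤ → Cl}
    {s : CSt Λ Cl} (hδ : 0 < δ) (h : Rep pos (2 * δ) η' New' κ s) (hη : η' = η ∨ η' = 2 * η)
    (hs : 14 * η' ≤ 2 * δ) (hnew : ∀ z, New' (κ (cl (2 * δ) (pos z))))
    (hold : ∀ z V X, Quad V (cl (2 * δ) (pos z)) → Quad V X → ¬ New (κ X)) :
    Rep pos δ η New (fun X => κ (half X)) s := by
  obtain ⟨h1, HA, h2, h3, h4, h5⟩ := h
  have ev : ∀ V : ℤ × ℤ, ((((2 * δ : ℕ) : ℤ) * V.1, ((2 * δ : ℕ) : ℤ) * V.2) : ℤ × ℤ) =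
      ((δ : ℤ) * (2 * V.1), (δ : ℤ) * (2 * V.2)) := by
    intro V
    refine Prod.ext ?_ ?_ <;> dsimp only <;> push_cast <;> ring
  refine ⟨fun z => by rw [h1 z, cl_two], HA, h2, fun h hh => ?_, h4, fun V hV => ?_⟩
  · obtain ⟨hne, V, hV, h6, h7, h8⟩ := h3 h hh
    have he : h.e = η' := rep_unit (by omega) hs hnew hne hV h8
    refine ⟨hne, (2 * V.1, 2 * V.2), by rw [hV, ev], three_half h6, occ_half.2 h7, ?_⟩
    rcases hη with hη | hη
    · exact Or.inl (he.trans hη)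
    · refine Or.inr ⟨he.trans hη, fun p hp => ?_⟩
      obtain ⟨X, hX, rfl⟩ := occ_half.1 hp
      obtain ⟨z, hz⟩ := hne
      have hz' : z ∈ bx pos (((2 * δ : ℕ) : ℤ) * V.1, ((2 * δ : ℕ) : ℤ) * V.2) (7 * h.e) := hV ▸ hz
      exact hold z V X (quad_cl (by omega) (by rw [he]; push_cast; omega) hz') hX
  · by_cases hx : V.1 % 2 = 1
    · refine Or.inl ⟨(κ (V.1 / 2, V.2 / 2), κ (V.1 / 2, (V.2 - 1) / 2)), fun X hX => ?_⟩
      have e1 : X.1 / 2 = V.1 / 2 := by unfold Quad at hX; omega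
      rcases hX.2 with e | e
      · exact Or.inl (by simp only [half, e1, e])
      · exact Or.inr (by simp only [half, e1, e])
    by_cases hy : V.2 % 2 = 1
    · refine Or.inl ⟨(κ (V.1 / 2, V.2 / 2), κ ((V.1 - 1) / 2, V.2 / 2)), fun X hX => ?_⟩
      have e1 : X.2 / 2 = V.2 / 2 := by unfold Quad at hX; omega
      rcases hX.1 with e | e
      · exact Or.inl (by simp only [half, e1, e])
      · exact Or.inr (by simp only [half, e1, e])
    have eV : V = (2 * (V.1 / 2), 2 * (V.2 / 2)) := by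
      refine Prod.ext ?_ ?_ <;> dsimp only <;> omega
    have eV' : (((δ : ℤ) * V.1, (δ : ℤ) * V.2) : ℤ × ℤ) =
        (((2 * δ : ℕ) : ℤ) * (V.1 / 2, V.2 / 2).1, ((2 * δ : ℕ) : ℤ) * (V.1 / 2, V.2 / 2).2) := by
      rw [ev]
      dsimp only
      congr 2 <;> omega
    rw [eV'] at hV ⊢
    rcases h5 (V.1 / 2, V.2 / 2) (hV.mono (bx_mono (by omega))) with h | h
    · left
      rw [eV]
      exact (two_half (V := (V.1 / 2, V.2 / 2))).2 h
    · exact Or.inr h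

/-- Invariant of painting the squares of `T` with the colours `c` over the colouring `base`. -/
def Inv (c : ℕ × ℕ → Cl) (base : ℤ × ℤ → Cl) (T : Finset (ℕ × ℕ)) (κ : ℤ × ℤ → Cl) : Prop :=
  (∀ X, (∃ q ∈ T, κ X = c q ∧ (sqr q.1 q.2).mem X) ∨
    (κ X = base X ∧ ∀ q ∈ T, ¬ (sqr q.1 q.2).mem X)) ∧
  ∀ A B, κ A ≠ κ B → (∃ q ∈ T, ¬ ((sqr q.1 q.2).mem A ↔ (sqr q.1 q.2).mem B)) ∨
    ((∀ q ∈ T, ¬ (sqr q.1 q.2).mem B) ∧ base A ≠ base B)

omit [DecidableEq Cl] in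
theorem inv_empty (c : ℕ × ℕ → Cl) (base : ℤ × ℤ → Cl) : Inv c base ∅ base :=
  ⟨fun X => Or.inr ⟨rfl, by simp⟩, fun A B h => Or.inr ⟨by simp, h⟩⟩

omit [DecidableEq Cl] in
theorem inv_insert {c : ℕ × ℕ → Cl} {base : ℤ × ℤ → Cl} {T : Finset (ℕ × ℕ)} {κ : ℤ × ℤ → Cl}
    (h : Inv c base T κ) (q : ℕ × ℕ) :
    Inv c base (insert q T) (paint κ (sqr q.1 q.2) (c q)) := by
  refine ⟨fun X => ?_, fun A B hAB => ?_⟩
  · by_cases hX : (sqr q.1 q.2).mem X
    · exact Or.inl ⟨q, Finset.mem_insert_self _ _, by simp [paint, hX], hX⟩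
    · rcases h.1 X with ⟨q', hq', e, hm⟩ | ⟨e, hm⟩
      · exact Or.inl ⟨q', Finset.mem_insert_of_mem hq', by simp [paint, hX, e], hm⟩
      · refine Or.inr ⟨by simp [paint, hX, e], fun q' hq' => ?_⟩
        rcases Finset.mem_insert.1 hq' with rfl | hq'
        · exact hX
        · exact hm q' hq'
  · by_cases hiff : (sqr q.1 q.2).mem A ↔ (sqr q.1 q.2).mem B
    swap
    · exact Or.inl ⟨q, Finset.mem_insert_self _ _, hiff⟩
    by_cases hB : (sqr q.1 q.2).mem B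
    · exact (hAB (by simp [paint, hB, hiff.2 hB])).elim
    have hA : ¬ (sqr q.1 q.2).mem A := fun hA => hB (hiff.1 hA)
    rcases h.2 A B (by simpa [paint, hA, hB] using hAB) with ⟨q', hq', hm⟩ | ⟨hm, e⟩
    · exact Or.inl ⟨q', Finset.mem_insert_of_mem hq', hm⟩
    · refine Or.inr ⟨fun q' hq' => ?_, e⟩
      rcases Finset.mem_insert.1 hq' with rfl | hq'
      · exact hB
      · exact hm q' hq'

theorem edge_h {Q : Rect} {X Y : ℤ} (h : ¬ (Q.mem (X - 1, Y) ↔ Q.mem (X, Y))) :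
    (X = Q.x0 ∨ X = Q.x1) ∧ Q.y0 ≤ Y ∧ Y < Q.y1 := by
  simp only [Rect.mem] at h
  omega

theorem edge_v {Q : Rect} {X Y : ℤ} (h : ¬ (Q.mem (X, Y - 1) ↔ Q.mem (X, Y))) :
    (Y = Q.y0 ∨ Y = Q.y1) ∧ Q.x0 ≤ X ∧ X < Q.x1 := by
  simp only [Rect.mem] at h
  omega

theorem cls_bd (a b : ℤ) : 0 ≤ cls a b ∧ cls a b ≤ 3 := by
  unfold cls
  omega

theorem cls_par {a b a' b' : ℤ} (h : cls a b = cls a' b') : a % 2 = a' % 2 ∧ b % 2 = b' % 2 := by
  unfold cls at h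
  omega

theorem line_eq {a a' t t' X : ℤ} (h0 : 0 ≤ t ∧ t ≤ 3) (h0' : 0 ≤ t' ∧ t' ≤ 3)
    (h : X = 32 * a - (17 + t) ∨ X = 32 * a + (17 + t))
    (h' : X = 32 * a' - (17 + t') ∨ X = 32 * a' + (17 + t')) : a = a' ∧ t = t' := by
  omega

omit [DecidableEq Cl] in
/-- The sides of an unpainted square carry no interface. -/
theorem inv_gen {c : ℕ × ℕ → Cl} {base : ℤ × ℤ → Cl} {T : Finset (ℕ × ℕ)} {κ : ℤ × ℤ → Cl}
    (h : Inv c base T κ) {q : ℕ × ℕ} (hq : q ∉ T) (hb : Gen base (sqr q.1 q.2)) :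
    Gen κ (sqr q.1 q.2) := by
  refine ⟨fun X Y hX h1 h2 => ?_, fun X Y hY h1 h2 => ?_⟩
  · by_contra hne
    rcases h.2 _ _ hne with ⟨q', hq', hm⟩ | ⟨-, e⟩
    · have hqq : q'.1 ≠ q.1 ∨ q'.2 ≠ q.2 := by
        by_contra hc
        push Not at hc
        exact hq (by rw [← Prod.ext hc.1 hc.2]; exact hq')
      obtain ⟨g1, g2, g3⟩ := edge_h hm
      obtain ⟨g4, g5⟩ := line_eq (cls_bd _ _) (cls_bd _ _) hX g1
      have g6 := (cls_par g5).2
      have g7 := cls_bd q.1 q.2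
      simp only [sqr, ← g5] at h1 h2 g2 g3
      omega
    · exact e (hb.1 X Y hX h1 h2)
  · by_contra hne
    rcases h.2 _ _ hne with ⟨q', hq', hm⟩ | ⟨-, e⟩
    · have hqq : q'.1 ≠ q.1 ∨ q'.2 ≠ q.2 := by
        by_contra hc
        push Not at hc
        exact hq (by rw [← Prod.ext hc.1 hc.2]; exact hq')
      obtain ⟨g1, g2, g3⟩ := edge_v hm
      obtain ⟨g4, g5⟩ := line_eq (cls_bd _ _) (cls_bd _ _) hY g1
      have g6 := (cls_par g5).1
      have g7 := cls_bd q.1 q.2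
      simp only [sqr, ← g5] at h1 h2 g2 g3
      omega
    · exact e (hb.2 X Y hY h1 h2)

/-- The frame of a square. -/
def Fr (q : ℕ × ℕ) (X : ℤ × ℤ) : Prop :=
  (⟨(sqr q.1 q.2).x0 - 1, (sqr q.1 q.2).x1 + 1, (sqr q.1 q.2).y0 - 1, (sqr q.1 q.2).y1 + 1⟩ :
    Rect).mem X

/-- Painting all the squares of a family. -/
theorem paint_all {β : Type} {pos : Λ → ℤ × ℤ} {Ex Pt : Finset Λ → Finset Λ → Prop} {δ η : ℕ}
    (hP : PaintSpec (Cl := Cl) pos Ex Pt δ η) (New : Cl → Prop) (c : ℕ × ℕ → Cl)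
    (base : ℤ × ℤ → Cl) (blk : ℕ × ℕ → β) (hblk : Function.Injective blk) (I : β → Finset Cl)
    (S : Finset (ℕ × ℕ)) (hc : ∀ q ∈ S, New (c q)) (hinj : ∀ q ∈ S, ∀ q' ∈ S, c q = c q' → q = q')
    (hI : ∀ q ∈ S, ∀ q' ∈ S, q.1 ≤ q'.1 + 1 → q'.1 ≤ q.1 + 1 → q.2 ≤ q'.2 + 1 → q'.2 ≤ q.2 + 1 →
      c q' ∈ I (blk q))
    (hb : ∀ q ∈ S, Gen base (sqr q.1 q.2) ∧ ∀ X, Fr q X → ¬ New (base X) ∧ base X ∈ I (blk q))
    (s : CSt Λ Cl) (hs : Rep pos δ η New base s) (T : Finset (ℕ × ℕ)) : T ⊆ S →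
    ∃ (l : List β) (κ : ℤ × ℤ → Cl) (s' : CSt Λ Cl), l.Nodup ∧ (∀ b ∈ l, ∃ q ∈ T, b = blk q) ∧
      Blocks Ex Pt I l s s' ∧ Rep pos δ η New κ s' ∧ Inv c base T κ := by
  induction T using Finset.induction_on with
  | empty => exact fun _ => ⟨[], base, s, List.nodup_nil, by simp, Blocks.nil _, hs, inv_empty _ _⟩
  | insert q T hq ih =>
    intro hT
    have hqS : q ∈ S := hT (Finset.mem_insert_self _ _)
    have hTS : T ⊆ S := fun x hx => hT (Finset.mem_insert_of_mem hx)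
    obtain ⟨l, κ, s₁, h1, h2, h3, h4, h5⟩ := ih hTS
    obtain ⟨m, s', hm, hseg, hrep⟩ := hP New κ (sqr q.1 q.2) (c q) (I (blk q)) s₁ h4
      (inv_gen h5 hq (hb q hqS).1) (by simp only [sqr, cls]; omega) (by simp only [sqr, cls]; omega)
      (by simp only [sqr, cls]; omega) (by simp only [sqr, cls]; omega) (hc q hqS)
      (hI q hqS q hqS (by omega) (by omega) (by omega) (by omega)) (fun X hX => by
        rcases h5.1 X with ⟨q', hq', e, hm⟩ | ⟨e, -⟩
        · rw [e]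
          refine ⟨fun h => hq (hinj q' (hTS hq') q hqS h ▸ hq'), fun _ => ?_⟩
          simp only [Rect.mem, sqr, cls] at hm hX
          exact hI q hqS q' (hTS hq') (by omega) (by omega) (by omega) (by omega)
        · rw [e]
          obtain ⟨g1, g2⟩ := (hb q hqS).2 X hX
          exact ⟨fun h => g1 (h ▸ hc q hqS), fun _ => g2⟩)
    refine ⟨l ++ [blk q], _, s', ?_, fun b hb => ?_,
      blocks_append h3 (Blocks.cons hm hseg (Blocks.nil _)), hrep, inv_insert h5 q⟩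
    · rw [List.nodup_append]
      refine ⟨h1, List.nodup_singleton _, fun a ha b hb hab => ?_⟩
      obtain ⟨q', hq', rfl⟩ := h2 a ha
      rw [List.mem_singleton] at hb
      exact hq (hblk (hab.trans hb) ▸ hq')
    · rcases List.mem_append.1 hb with hb | hb
      · obtain ⟨q', hq', e⟩ := h2 b hb
        exact ⟨q', Finset.mem_insert_of_mem hq', e⟩
      · exact ⟨q, Finset.mem_insert_self _ _, List.mem_singleton.1 hb⟩

/-- The number of sites of a box for an injective position. -/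
theorem card_bx_le {pos : Λ → ℤ × ℤ} (hpos : Function.Injective pos) (v : ℤ × ℤ) (r : ℕ) :
    (bx pos v r).card ≤ (2 * r) * (2 * r) := by
  have h : (bx pos v r).card ≤
      (Finset.Ico (v.1 - r) (v.1 + r) ×ˢ Finset.Ico (v.2 - r) (v.2 + r)).card := by
    refine Finset.card_le_card_of_injOn pos (fun z hz => ?_) hpos.injOn
    have hz' := mem_bx.1 (Finset.mem_coe.1 hz)
    simp only [Finset.coe_product, Finset.coe_Ico, Set.mem_prod, Set.mem_Ico]
    omega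
  rw [Finset.card_product, Int.card_Ico, Int.card_Ico] at h
  have e1 : (v.1 + r - (v.1 - r)).toNat = 2 * r := by omega
  have e2 : (v.2 + r - (v.2 - r)).toNat = 2 * r := by omega
  rwa [e1, e2] at h

end generic

end Crest.Agent.N336.P.Geo.Sch
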